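import Vale.Agent.P279.MathlibUsed
import Vale.Agent.P279.Defs

set_option linter.all false

section

section

namespace Vale.Agent.P279

open MvPolynomial

/-- Translation `P(x,y) ↦ P(q + T)`. -/
noncomputable def shift {R : Type*} [CommRing R] (q : Fin 2 → R) :
    MvPolynomial (Fin 2) R →ₐ[R] MvPolynomial (Fin 2) R :=
  aeval (fun j => X j + C (q j))

/-- `P` vanishes to order at least `m` at `q`. -/
def MultGE {R : Type*} [CommRing R] (q : Fin 2 → R) (m : ℕ) (P : MvPolynomial (Fin 2) R) : Prop :=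
  ∀ α : Fin 2 →₀ ℕ, α 0 + α 1 < m → coeff α (shift q P) = 0

/-- Support in the trapezoid: total degree at most `b`, degree in the second variable at most
`b - c`. -/
def InV {R : Type*} [CommRing R] (b c : ℕ) (P : MvPolynomial (Fin 2) R) : Prop :=
  ∀ δ ∈ P.support, δ 0 + δ 1 ≤ b ∧ δ 1 + c ≤ b

/-- Effectivity for all rational configurations. -/
def Eff {ι : Type*} (b c : ℕ) (m : ι → ℕ) : Prop :=
  ∀ q : ι → Fin 2 → ℚ, ∃ P : MvPolynomial (Fin 2) ℚ, P ≠ 0 ∧ InV b c P ∧
    ∀ i, MultGE (q i) (m i) P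

/-- The polynomial ring and the field of the generic configuration. -/
abbrev GR (ι : Type*) := MvPolynomial (ι × Fin 2) ℚ

abbrev GK (ι : Type*) := FractionRing (GR ι)

/-- The generic points. -/
noncomputable def gen (ι : Type*) (i : ι) (k : Fin 2) : GK ι := algebraMap (GR ι) (GK ι) (X (i, k))

/-- The exact order of vanishing (junk value for `P = 0`). -/
noncomputable def ordAt {R : Type*} [CommRing R] (q : Fin 2 → R) (P : MvPolynomial (Fin 2) R) : ℕ :=
  sInf {k | ∃ α ∈ (shift q P).support, α 0 + α 1 = k}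

/-- The near-nefness statement. -/
def Nef (n : ℕ) (γ ω : ℝ) : Prop :=
  ∀ (b c : ℕ) (m : Fin n → ℕ), Eff b c m →
    c * γ + ∑ i, (m i : ℝ) ≤ b * √(γ ^ 2 + n + ω)

end Vale.Agent.P279
end
end

section

section

namespace Vale.Agent.P279

open MvPolynomial

/-! ### The translation -/

section Shift

variable {R : Type*} [CommRing R]

theorem shift_X (q : Fin 2 → R) (k : Fin 2) : shift q (X k) = X k + C (q k) := by
  simp only [shift, aeval_eq_bind₁, bind₁_X_right]

theorem shift_C (q : Fin 2 → R) (a : R) : shift q (C a) = C a := by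
  simp only [shift, aeval_eq_bind₁, algHom_C, algebraMap_eq]

theorem shift_comp (p q : Fin 2 → R) : (shift p).comp (shift q) = shift (p + q) := by
  apply MvPolynomial.algHom_ext
  intro k
  simp only [shift, AlgHom.comp_apply, aeval_X, map_add, algHom_C, algebraMap_eq, Pi.add_apply]
  ring

theorem shift_shift (p q : Fin 2 → R) (P : MvPolynomial (Fin 2) R) :
    shift p (shift q P) = shift (p + q) P :=
  DFunLike.congr_fun (shift_comp p q) P

theorem shift_zero_apply (P : MvPolynomial (Fin 2) R) : shift 0 P = P := by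
  have h : shift (0 : Fin 2 → R) = AlgHom.id R (MvPolynomial (Fin 2) R) := by
    apply MvPolynomial.algHom_ext
    intro k
    simp [shift]
  rw [h]
  rfl

theorem shift_neg_shift (q : Fin 2 → R) (P : MvPolynomial (Fin 2) R) :
    shift (-q) (shift q P) = P := by
  rw [shift_shift, neg_add_cancel, shift_zero_apply]

theorem shift_injective (q : Fin 2 → R) : Function.Injective (shift q) :=
  Function.LeftInverse.injective (shift_neg_shift q)

theorem shift_ne_zero (q : Fin 2 → R) {P : MvPolynomial (Fin 2) R} (hP : P ≠ 0) :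
    shift q P ≠ 0 := by
  intro h
  exact hP (shift_injective q (by rw [h, map_zero]))

end Shift

/-! ### Vanishing to order at least `m` -/

section MultGE

variable {R : Type*} [CommRing R]

theorem degree_two (α : Fin 2 →₀ ℕ) : Finsupp.degree α = α 0 + α 1 := by
  rw [Finsupp.degree_eq_sum, Fin.sum_univ_two]

theorem multGE_iff {q : Fin 2 → R} {m : ℕ} {P : MvPolynomial (Fin 2) R} :
    MultGE q m P ↔ shift q P ∈ idealOfVars (Fin 2) R ^ m := by
  rw [mem_pow_idealOfVars_iff']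
  simp only [MultGE, degree_two]

theorem MultGE.add {q : Fin 2 → R} {m : ℕ} {P Q : MvPolynomial (Fin 2) R}
    (hP : MultGE q m P) (hQ : MultGE q m Q) : MultGE q m (P + Q) := by
  rw [multGE_iff] at *
  rw [map_add]
  exact add_mem hP hQ

theorem MultGE.smul {q : Fin 2 → R} {m : ℕ} {P : MvPolynomial (Fin 2) R} (r : R)
    (hP : MultGE q m P) : MultGE q m (r • P) := by
  intro α hα
  rw [map_smul, coeff_smul, hP α hα, smul_zero]

theorem MultGE.mul_left {q : Fin 2 → R} {m : ℕ} {P : MvPolynomial (Fin 2) R}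
    (hP : MultGE q m P) (Q : MvPolynomial (Fin 2) R) : MultGE q m (Q * P) := by
  rw [multGE_iff] at *
  rw [map_mul]
  exact Ideal.mul_mem_left _ _ hP

theorem MultGE.zero {q : Fin 2 → R} {m : ℕ} : MultGE q m (0 : MvPolynomial (Fin 2) R) := by
  intro α _
  rw [map_zero, coeff_zero]

theorem multGE_zero_left {q : Fin 2 → R} {P : MvPolynomial (Fin 2) R} : MultGE q 0 P :=
  fun _ hα => absurd hα (Nat.not_lt_zero _)

end MultGE

/-! ### The exact order -/

section Ord

variable {K : Type*} [Field K]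

theorem multGE_iff_le_ordAt (q : Fin 2 → K) (m : ℕ) {P : MvPolynomial (Fin 2) K} (hP : P ≠ 0) :
    MultGE q m P ↔ m ≤ ordAt q P := by
  have hne : (shift q P).support.Nonempty := support_nonempty.mpr (shift_ne_zero q hP)
  obtain ⟨α₀, hα₀⟩ := hne
  have hS : {k | ∃ α ∈ (shift q P).support, α 0 + α 1 = k}.Nonempty := ⟨_, α₀, hα₀, rfl⟩
  constructor
  · intro h
    obtain ⟨α, hα, hk⟩ := Nat.sInf_mem hS
    rw [ordAt, ← hk]
    by_contra hlt
    exact (mem_support_iff.mp hα) (h α (by omega))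
  · intro h α hα
    by_contra hne
    have : ordAt q P ≤ α 0 + α 1 := Nat.sInf_le ⟨α, mem_support_iff.mpr hne, rfl⟩
    omega

theorem multGE_ordAt (q : Fin 2 → K) {P : MvPolynomial (Fin 2) K} (hP : P ≠ 0) :
    MultGE q (ordAt q P) P :=
  (multGE_iff_le_ordAt q _ hP).mpr le_rfl

theorem order_shift (q : Fin 2 → K) {P : MvPolynomial (Fin 2) K} (hP : P ≠ 0) :
    ((shift q P : MvPolynomial (Fin 2) K) : MvPowerSeries (Fin 2) K).order = (ordAt q P : ℕ∞) := by
  have hne : (shift q P).support.Nonempty := support_nonempty.mpr (shift_ne_zero q hP)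
  obtain ⟨α₀, hα₀⟩ := hne
  have hS : {k | ∃ α ∈ (shift q P).support, α 0 + α 1 = k}.Nonempty := ⟨_, α₀, hα₀, rfl⟩
  rw [MvPowerSeries.order_eq_nat]
  constructor
  · obtain ⟨α, hα, hk⟩ := Nat.sInf_mem hS
    refine ⟨α, ?_, ?_⟩
    · rw [coeff_coe]
      exact mem_support_iff.mp hα
    · rw [degree_two]
      exact hk
  · intro α hα
    rw [coeff_coe]
    exact multGE_ordAt q hP α (by rwa [degree_two] at hα)

theorem ordAt_mul (q : Fin 2 → K) {P Q : MvPolynomial (Fin 2) K} (hP : P ≠ 0) (hQ : Q ≠ 0) :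
    ordAt q (P * Q) = ordAt q P + ordAt q Q := by
  have h := MvPowerSeries.order_mul (R := K)
    ((shift q P : MvPolynomial (Fin 2) K) : MvPowerSeries (Fin 2) K)
    ((shift q Q : MvPolynomial (Fin 2) K) : MvPowerSeries (Fin 2) K)
  rw [← coe_mul, ← map_mul, order_shift q hP, order_shift q hQ,
    order_shift q (mul_ne_zero hP hQ)] at h
  exact_mod_cast h

theorem totalDegree_shift_le (q : Fin 2 → K) (P : MvPolynomial (Fin 2) K) :
    (shift q P).totalDegree ≤ P.totalDegree := by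
  have hX : ∀ j : Fin 2, (X j + C (q j) : MvPolynomial (Fin 2) K).totalDegree ≤ 1 := by
    intro j
    refine (totalDegree_add _ _).trans ?_
    rw [totalDegree_X, totalDegree_C]
    simp only [zero_le, sup_of_le_left, Std.le_refl]
  rw [shift, aeval_def, eval₂_eq']
  refine (totalDegree_finsetSum _ _).trans (Finset.sup_le fun δ hδ => ?_)
  refine (totalDegree_mul _ _).trans ?_
  rw [algebraMap_eq, totalDegree_C, zero_add]
  refine (totalDegree_finsetProd _ _).trans ?_
  have h2 := le_totalDegree hδ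
  rw [Finsupp.sum_fintype _ _ (fun _ => rfl)] at h2
  refine le_trans (Finset.sum_le_sum fun j _ => ?_) h2
  refine (totalDegree_pow _ _).trans ?_
  simpa only [mul_one] using Nat.mul_le_mul_left (δ j) (hX j)

theorem ordAt_le_totalDegree (q : Fin 2 → K) {P : MvPolynomial (Fin 2) K} (hP : P ≠ 0) :
    ordAt q P ≤ P.totalDegree := by
  obtain ⟨α, hα⟩ := support_nonempty.mpr (shift_ne_zero q hP)
  have h1 : ordAt q P ≤ α 0 + α 1 := Nat.sInf_le ⟨α, hα, rfl⟩
  have h2 := le_totalDegree hα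
  rw [Finsupp.sum_fintype _ _ (fun _ => rfl), Fin.sum_univ_two] at h2
  exact h1.trans (h2.trans (totalDegree_shift_le q P))

end Ord

/-! ### The trapezoids -/

section InV

variable {R : Type*} [CommRing R]

theorem InV.zero {b c : ℕ} : InV b c (0 : MvPolynomial (Fin 2) R) := by
  intro δ hδ
  simp at hδ

theorem InV.add {b c : ℕ} {P Q : MvPolynomial (Fin 2) R}
    (hP : InV b c P) (hQ : InV b c Q) : InV b c (P + Q) := by
  classical
  intro δ hδ
  rcases Finset.mem_union.mp (MvPolynomial.support_add hδ) with h | h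
  · exact hP δ h
  · exact hQ δ h

theorem InV.smul {b c : ℕ} {P : MvPolynomial (Fin 2) R} (r : R) (hP : InV b c P) :
    InV b c (r • P) :=
  fun δ hδ => hP δ (support_smul hδ)

theorem InV.mul {b c b' c' : ℕ} {P Q : MvPolynomial (Fin 2) R}
    (hP : InV b c P) (hQ : InV b' c' Q) : InV (b + b') (c + c') (P * Q) := by
  classical
  intro δ hδ
  obtain ⟨x, hx, y, hy, rfl⟩ := Finset.mem_add.mp (MvPolynomial.support_mul P Q hδ)
  have h2 := hP x hx
  have h3 := hQ y hy
  simp only [Finsupp.add_apply]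
  omega

theorem InV.mono {b c b' c' : ℕ} {P : MvPolynomial (Fin 2) R} (hP : InV b c P) (h1 : b ≤ b')
    (h2 : b + c' ≤ b' + c) : InV b' c' P := by
  intro δ hδ
  have := hP δ hδ
  omega

theorem InV.sum {b c : ℕ} {ι : Type*} {s : Finset ι} {P : ι → MvPolynomial (Fin 2) R}
    (h : ∀ i ∈ s, InV b c (P i)) : InV b c (∑ i ∈ s, P i) := by
  classical
  induction s using Finset.induction_on with
  | empty => simpa using InV.zero
  | insert a s ha ih =>
    rw [Finset.sum_insert ha]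
    exact (h a (Finset.mem_insert_self a s)).add
      (ih fun i hi => h i (Finset.mem_insert_of_mem hi))

theorem InV.pow {b c : ℕ} {P : MvPolynomial (Fin 2) R} (hP : InV b c P) (n : ℕ) :
    InV (n * b) (n * c) (P ^ n) := by
  induction n with
  | zero =>
    rw [pow_zero, zero_mul, zero_mul]
    intro δ hδ
    have h1 : δ = 0 := by
      by_contra hne
      rw [mem_support_iff, coeff_one, if_neg (fun h => hne h.symm)] at hδ
      exact hδ rfl
    simp only [h1, Fin.isValue, Finsupp.coe_zero, Pi.zero_apply, add_zero, Std.le_refl, and_self]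
  | succ n ih =>
    rw [pow_succ, add_mul, add_mul, one_mul, one_mul]
    exact ih.mul hP

theorem InV.C {a : R} : InV 0 0 (MvPolynomial.C a : MvPolynomial (Fin 2) R) := by
  intro δ hδ
  have h1 : δ = 0 := by
    by_contra hne
    rw [mem_support_iff, coeff_C, if_neg (fun h => hne h.symm)] at hδ
    exact hδ rfl
  simp only [h1, Fin.isValue, Finsupp.coe_zero, Pi.zero_apply, add_zero, Std.le_refl, and_self]

theorem InV.X_zero : InV 1 1 (X 0 : MvPolynomial (Fin 2) R) := by
  intro δ hδ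
  have h1 : δ = Finsupp.single 0 1 := by
    by_contra hne
    rw [mem_support_iff, coeff_X, if_neg (fun h => hne h.symm)] at hδ
    exact hδ rfl
  simp [h1]

theorem InV.X_one : InV 1 0 (X 1 : MvPolynomial (Fin 2) R) := by
  intro δ hδ
  have h1 : δ = Finsupp.single 1 1 := by
    by_contra hne
    rw [mem_support_iff, coeff_X, if_neg (fun h => hne h.symm)] at hδ
    exact hδ rfl
  simp only [h1, Fin.isValue, ne_eq, zero_ne_one, not_false_eq_true, Finsupp.single_eq_of_ne, Finsupp.single_eq_same, zero_add, Std.le_refl, add_zero, and_self]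

/-- The trapezoids are invariant under translations. -/
theorem InV.shift {b c : ℕ} {P : MvPolynomial (Fin 2) R} (hP : InV b c P) (q : Fin 2 → R) :
    InV b c (shift q P) := by
  rw [Vale.Agent.P279.shift, aeval_def, eval₂_eq']
  refine InV.sum fun δ hδ => ?_
  rw [algebraMap_eq, Fin.prod_univ_two]
  have h0 : InV 1 1 (X 0 + MvPolynomial.C (q 0) : MvPolynomial (Fin 2) R) :=
    InV.X_zero.add (InV.C.mono (by omega) (by omega))
  have h1 : InV 1 0 (X 1 + MvPolynomial.C (q 1) : MvPolynomial (Fin 2) R) :=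
    InV.X_one.add (InV.C.mono (by omega) (by omega))
  have h2 := (InV.C (a := coeff δ P)).mul ((h0.pow (δ 0)).mul (h1.pow (δ 1)))
  have h3 := hP δ hδ
  exact h2.mono (by omega) (by omega)

theorem inV_iff {b c : ℕ} {P : MvPolynomial (Fin 2) R} (hP : P ≠ 0) :
    InV b c P ↔ P.totalDegree ≤ b ∧ P.degreeOf 1 + c ≤ b := by
  obtain ⟨δ₀, hδ₀⟩ := support_nonempty.mpr hP
  constructor
  · intro h
    constructor
    · rw [totalDegree]
      apply Finset.sup_le
      intro δ hδ
      rw [Finsupp.sum_fintype _ _ (fun _ => rfl), Fin.sum_univ_two]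
      exact (h δ hδ).1
    · have h1 : P.degreeOf 1 ≤ b - c := by
        rw [degreeOf_le_iff]
        intro δ hδ
        have := (h δ hδ).2
        omega
      have := (h δ₀ hδ₀).2
      omega
  · rintro ⟨h1, h2⟩ δ hδ
    have h3 := le_totalDegree hδ
    rw [Finsupp.sum_fintype _ _ (fun _ => rfl), Fin.sum_univ_two] at h3
    have h4 := monomial_le_degreeOf 1 hδ
    omega

end InV

end Vale.Agent.P279
end
end

section

section

namespace Vale.Agent.P279

open MvPolynomial

/-! ### Behaviour under change of rings -/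

section Map

variable {R S : Type*} [CommRing R] [CommRing S]

theorem map_shift (φ : R →+* S) (q : Fin 2 → R) (P : MvPolynomial (Fin 2) R) :
    map φ (shift q P) = shift (fun k => φ (q k)) (map φ P) := by
  induction P using MvPolynomial.induction_on with
  | C a => simp only [shift_C, map_C]
  | add p q hp hq => simp only [map_add, hp, hq]
  | mul_X p n hp => simp only [map_mul, shift_X, hp, map_add, map_X, map_C]

theorem MultGE.map (φ : R →+* S) {q : Fin 2 → R} {m : ℕ} {P : MvPolynomial (Fin 2) R}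
    (h : MultGE q m P) : MultGE (fun k => φ (q k)) m (MvPolynomial.map φ P) := by
  intro α hα
  rw [← map_shift, coeff_map, h α hα, map_zero]

theorem multGE_map_iff {φ : R →+* S} (hφ : Function.Injective φ) {q : Fin 2 → R} {m : ℕ}
    {P : MvPolynomial (Fin 2) R} :
    MultGE (fun k => φ (q k)) m (MvPolynomial.map φ P) ↔ MultGE q m P := by
  refine ⟨fun h α hα => ?_, fun h => h.map φ⟩
  have h1 := h α hα
  rw [← map_shift, coeff_map] at h1
  exact hφ (by rw [h1, map_zero])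

theorem InV.map (φ : R →+* S) {b c : ℕ} {P : MvPolynomial (Fin 2) R} (h : InV b c P) :
    InV b c (MvPolynomial.map φ P) :=
  fun δ hδ => h δ (support_map_subset φ P hδ)

theorem inV_map_iff {φ : R →+* S} (hφ : Function.Injective φ) {b c : ℕ}
    {P : MvPolynomial (Fin 2) R} : InV b c (MvPolynomial.map φ P) ↔ InV b c P := by
  simp only [InV, support_map_of_injective P hφ]

theorem ordAt_map {φ : R →+* S} (hφ : Function.Injective φ) (q : Fin 2 → R)
    (P : MvPolynomial (Fin 2) R) :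
    ordAt (fun k => φ (q k)) (MvPolynomial.map φ P) = ordAt q P := by
  simp only [ordAt, ← map_shift, support_map_of_injective _ hφ]

theorem totalDegree_map_inj {φ : R →+* S} (hφ : Function.Injective φ)
    (P : MvPolynomial (Fin 2) R) :
    (MvPolynomial.map φ P).totalDegree = P.totalDegree := by
  simp only [totalDegree, support_map_of_injective P hφ]

theorem degreeOf_map_inj {φ : R →+* S} (hφ : Function.Injective φ) (k : Fin 2)
    (P : MvPolynomial (Fin 2) R) :
    (MvPolynomial.map φ P).degreeOf k = P.degreeOf k := by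
  simp only [degreeOf_eq_sup, support_map_of_injective P hφ]

end Map

/-! ### Permuting the generic points -/

section Perm

variable {ι : Type*}

/-- The automorphism of the polynomial ring permuting the points. -/
noncomputable def permR (σ : Equiv.Perm ι) : GR ι ≃ₐ[ℚ] GR ι :=
  renameEquiv ℚ (Equiv.prodCongr σ (Equiv.refl (Fin 2)))

/-- The automorphism of the field of the generic configuration permuting the points. -/
noncomputable def permK (σ : Equiv.Perm ι) : GK ι ≃+* GK ι :=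
  IsFractionRing.ringEquivOfRingEquiv (permR σ).toRingEquiv

theorem permK_gen (σ : Equiv.Perm ι) (i : ι) (k : Fin 2) : permK σ (gen ι i k) = gen ι (σ i) k := by
  rw [permK, gen, IsFractionRing.ringEquivOfRingEquiv_algebraMap]
  simp only [permR, RingEquiv.coe_mk, AlgEquiv.toEquiv_eq_coe, EquivLike.coe_coe, renameEquiv_apply, Equiv.prodCongr_apply, Equiv.coe_refl, rename_X, Prod.map_apply, id_eq, gen]

/-- The permuted polynomial. -/
noncomputable def permP (σ : Equiv.Perm ι) (F : MvPolynomial (Fin 2) (GK ι)) :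
    MvPolynomial (Fin 2) (GK ι) :=
  MvPolynomial.map (permK σ : GK ι →+* GK ι) F

theorem permP_irreducible (σ : Equiv.Perm ι) {F : MvPolynomial (Fin 2) (GK ι)}
    (hF : Irreducible F) : Irreducible (permP σ F) := by
  have h := (MulEquiv.irreducible_iff (mapEquiv (Fin 2) (permK σ))).mpr hF
  exact h

theorem permP_totalDegree (σ : Equiv.Perm ι) (F : MvPolynomial (Fin 2) (GK ι)) :
    (permP σ F).totalDegree = F.totalDegree :=
  totalDegree_map_inj (permK σ).injective F

theorem permP_degreeOf (σ : Equiv.Perm ι) (k : Fin 2) (F : MvPolynomial (Fin 2) (GK ι)) :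
    (permP σ F).degreeOf k = F.degreeOf k :=
  degreeOf_map_inj (permK σ).injective k F

theorem permP_ordAt (σ : Equiv.Perm ι) (i : ι) (F : MvPolynomial (Fin 2) (GK ι)) :
    ordAt (gen ι (σ i)) (permP σ F) = ordAt (gen ι i) F := by
  have h : gen ι (σ i) = fun k => (permK σ : GK ι →+* GK ι) (gen ι i k) := by
    funext k
    exact (permK_gen σ i k).symm
  rw [h]
  exact ordAt_map (permK σ).injective (gen ι i) F

theorem permP_ordAt' (σ : Equiv.Perm ι) (i : ι) (F : MvPolynomial (Fin 2) (GK ι)) :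
    ordAt (gen ι i) (permP σ F) = ordAt (gen ι (σ.symm i)) F := by
  rw [← permP_ordAt σ (σ.symm i) F, Equiv.apply_symm_apply]

theorem gen_injective (ι : Type*) : Function.Injective (gen ι) := by
  intro i j h
  have h0 := congrFun h 0
  have h1 : (X (i, 0) : GR ι) = X (j, 0) := IsFractionRing.injective (GR ι) (GK ι) h0
  have h2 := X_injective h1
  exact (Prod.mk.inj h2).1

end Perm

end Vale.Agent.P279
end
end

section

section

namespace Vale.Agent.P279

open MvPolynomial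

/-! ### Derivations applied to coefficients -/

section CoefD

variable {A R : Type*} [CommRing A] [CommRing R] [Algebra A R]

/-- The derivation `D` of the coefficient ring applied to all coefficients. -/
noncomputable def coefD (D : Derivation A R R) (P : MvPolynomial (Fin 2) R) :
    MvPolynomial (Fin 2) R :=
  ∑ δ ∈ P.support, monomial δ (D (coeff δ P))

theorem coeff_coefD (D : Derivation A R R) (P : MvPolynomial (Fin 2) R) (δ : Fin 2 →₀ ℕ) :
    coeff δ (coefD D P) = D (coeff δ P) := by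
  classical
  rw [coefD, coeff_sum]
  simp only [coeff_monomial]
  rw [Finset.sum_ite_eq' P.support δ]
  split_ifs with h
  · rfl
  · rw [notMem_support_iff.mp h, map_zero]

theorem coefD_add (D : Derivation A R R) (P Q : MvPolynomial (Fin 2) R) :
    coefD D (P + Q) = coefD D P + coefD D Q := by
  ext δ
  simp only [coeff_coefD, coeff_add, map_add]

theorem coefD_C (D : Derivation A R R) (a : R) :
    coefD D (C a) = C (D a) := by
  ext δ
  rw [coeff_coefD, coeff_C, coeff_C]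
  split_ifs with h
  · rfl
  · rw [map_zero]

theorem coefD_X (D : Derivation A R R) (j : Fin 2) :
    coefD D (X j) = 0 := by
  ext δ
  rw [coeff_coefD, coeff_X]
  split_ifs with h
  · rw [Derivation.map_one_eq_zero, coeff_zero]
  · rw [map_zero, coeff_zero]

theorem coefD_mul (D : Derivation A R R) (P Q : MvPolynomial (Fin 2) R) :
    coefD D (P * Q) = coefD D P * Q + P * coefD D Q := by
  classical
  ext δ
  rw [coeff_coefD, coeff_add, coeff_mul, coeff_mul, coeff_mul, map_sum, ← Finset.sum_add_distrib]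
  refine Finset.sum_congr rfl fun x _ => ?_
  rw [coeff_coefD, coeff_coefD, Derivation.leibniz, smul_eq_mul, smul_eq_mul]
  ring

/-- If the centre is fixed by the derivation, translation commutes with `coefD`. -/
theorem coefD_shift (D : Derivation A R R) (q : Fin 2 → R) (hq : ∀ j, D (q j) = 0)
    (P : MvPolynomial (Fin 2) R) :
    coefD D (shift q P) = shift q (coefD D P) := by
  induction P using MvPolynomial.induction_on with
  | C a => simp only [shift_C, coefD_C]
  | add p q hp hq => simp only [map_add, coefD_add, hp, hq]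
  | mul_X p n hp =>
    simp only [map_mul, coefD_mul, hp, shift_X, coefD_add, coefD_X, coefD_C, hq,
      map_zero, mul_zero, add_zero]

/-- If the derivation moves only the coordinate `k` of the centre. -/
theorem coefD_shift' (D : Derivation A R R) (q : Fin 2 → R) (k : Fin 2)
    (hq : ∀ j, D (q j) = if j = k then 1 else 0) (P : MvPolynomial (Fin 2) R) :
    coefD D (shift q P) = shift q (coefD D P) + shift q (pderiv k P) := by
  induction P using MvPolynomial.induction_on with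
  | C a => simp only [shift_C, coefD_C, pderiv_C, map_zero, add_zero]
  | add p q hp hq =>
    simp only [map_add, coefD_add, hp, hq]
    ring
  | mul_X p n hp =>
    have h1 : (C (D (q n)) : MvPolynomial (Fin 2) R) = shift q (pderiv k (X n)) := by
      rw [hq, pderiv_X, Pi.single_apply]
      split_ifs with h2
      · simp
      · simp
    simp only [map_mul, coefD_mul, hp, shift_X, coefD_add, coefD_X, coefD_C, map_add,
      mul_zero, zero_add, Derivation.leibniz, smul_eq_mul, h1, add_zero]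
    ring

theorem pderiv_shift (q : Fin 2 → R) (k : Fin 2) (P : MvPolynomial (Fin 2) R) :
    pderiv k (shift q P) = shift q (pderiv k P) := by
  induction P using MvPolynomial.induction_on with
  | C a => simp only [shift_C, pderiv_C, map_zero]
  | add p q hp hq => simp only [map_add, hp, hq]
  | mul_X p n hp =>
    have h1 : pderiv k (X n + C (q n) : MvPolynomial (Fin 2) R) = shift q (pderiv k (X n)) := by
      rw [map_add, pderiv_C, add_zero, pderiv_X, Pi.single_apply]
      split_ifs with h2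
      · simp only [map_one]
      · simp
    simp only [map_mul, shift_X, Derivation.leibniz, h1, smul_eq_mul, hp, map_add]

theorem coefD_support_subset (D : Derivation A R R) (P : MvPolynomial (Fin 2) R) :
    (coefD D P).support ⊆ P.support := by
  intro δ hδ
  rw [mem_support_iff, coeff_coefD] at hδ
  rw [mem_support_iff]
  intro h
  rw [h, map_zero] at hδ
  exact hδ rfl

theorem InV.coefD {b c : ℕ} {P : MvPolynomial (Fin 2) R} (h : InV b c P)
    (D : Derivation A R R) : InV b c (coefD D P) :=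
  fun δ hδ => h δ (coefD_support_subset D P hδ)

theorem MultGE.coefD {q : Fin 2 → R} {m : ℕ} {P : MvPolynomial (Fin 2) R} (h : MultGE q m P)
    (D : Derivation A R R) (hq : ∀ j, D (q j) = 0) : MultGE q m (coefD D P) := by
  intro α hα
  rw [← coefD_shift D q hq, coeff_coefD, h α hα, map_zero]

theorem MultGE.pderiv {q : Fin 2 → R} {m : ℕ} {P : MvPolynomial (Fin 2) R} (h : MultGE q m P)
    (k : Fin 2) : MultGE q (m - 1) (pderiv k P) := by
  intro α hα
  rw [← pderiv_shift, coeff_pderiv, h, zero_mul]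
  fin_cases k <;> simp <;> omega

end CoefD

section Clear

variable {ι : Type*}

/-- The generic points with coordinates in the polynomial ring. -/
noncomputable def genR (ι : Type*) (i : ι) (k : Fin 2) : GR ι := X (i, k)

theorem gen_eq (i : ι) : gen ι i = fun k => algebraMap (GR ι) (GK ι) (genR ι i k) := rfl

theorem exists_clear (F : MvPolynomial (Fin 2) (GK ι)) :
    ∃ a : GR ι, a ≠ 0 ∧ ∃ F' : MvPolynomial (Fin 2) (GR ι),
      MvPolynomial.map (algebraMap (GR ι) (GK ι)) F' = C (algebraMap (GR ι) (GK ι) a) * F := by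
  classical
  obtain ⟨b, hb⟩ := IsLocalization.exist_integer_multiples (nonZeroDivisors (GR ι)) F.support
    (fun δ => coeff δ F)
  refine ⟨b, nonZeroDivisors.ne_zero b.2, ?_⟩
  choose! g hg using hb
  refine ⟨∑ δ ∈ F.support, monomial δ (g δ), ?_⟩
  ext δ
  rw [coeff_map, coeff_sum, coeff_C_mul]
  simp only [coeff_monomial]
  rw [Finset.sum_ite_eq' F.support δ]
  split_ifs with h
  · rw [hg δ h, Algebra.smul_def]
  · rw [notMem_support_iff.mp h, map_zero, mul_zero]

theorem ordAt_C_mul {K : Type*} [Field K] (q : Fin 2 → K) {a : K} (ha : a ≠ 0)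
    (P : MvPolynomial (Fin 2) K) : ordAt q (C a * P) = ordAt q P := by
  have h : (shift q (C a * P)).support = (shift q P).support := by
    ext δ
    rw [map_mul, shift_C, mem_support_iff, mem_support_iff, coeff_C_mul]
    simp only [ne_eq, mul_eq_zero, ha, false_or]
  simp only [ordAt, h]

/-- The derivative trick. -/
theorem exists_derivative [DecidableEq ι] {F : MvPolynomial (Fin 2) (GK ι)} (hF0 : F ≠ 0) (i : ι)
    (hi : 1 ≤ ordAt (gen ι i) F) :
    ∃ H : MvPolynomial (Fin 2) (GK ι), (∀ b c, InV b c F → InV b c H) ∧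
      (∀ j, j ≠ i → MultGE (gen ι j) (ordAt (gen ι j) F) H) ∧
      MultGE (gen ι i) (ordAt (gen ι i) F - 1) H ∧ ¬ MultGE (gen ι i) (ordAt (gen ι i) F) H := by
  classical
  have hinj : Function.Injective (algebraMap (GR ι) (GK ι)) := IsFractionRing.injective _ _
  obtain ⟨a, ha, F', hF'⟩ := exists_clear F
  have ha' : algebraMap (GR ι) (GK ι) a ≠ 0 := by
    intro h
    exact ha (hinj (by rw [h, map_zero]))
  have hm : ∀ j m, MultGE (genR ι j) m F' ↔ m ≤ ordAt (gen ι j) F := by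
    intro j m
    rw [← multGE_map_iff hinj, ← gen_eq, hF', multGE_iff_le_ordAt, ordAt_C_mul _ ha']
    exact mul_ne_zero (by simpa only [ne_eq, map_eq_zero, FaithfulSMul.algebraMap_eq_zero_iff] using ha') hF0
  set m := ordAt (gen ι i) F with hmdef
  have h1 : MultGE (genR ι i) m F' := (hm i m).mpr le_rfl
  have h2 : ¬ MultGE (genR ι i) (m + 1) F' := by
    rw [hm]
    omega
  have h3 : ∃ α : Fin 2 →₀ ℕ, α 0 + α 1 = m ∧ coeff α (shift (genR ι i) F') ≠ 0 := by
    by_contra hcon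
    push Not at hcon
    apply h2
    intro α hα
    rcases Nat.lt_or_ge (α 0 + α 1) m with h | h
    · exact h1 α h
    · exact hcon α (by omega)
  obtain ⟨α, hα, hne⟩ := h3
  have h4 : ∃ k : Fin 2, 1 ≤ α k := by
    by_contra hcon
    push Not at hcon
    have := hcon 0
    have := hcon 1
    omega
  obtain ⟨k, hk⟩ := h4
  set D : Derivation ℚ (GR ι) (GR ι) := pderiv (i, k) with hD
  have hDi : ∀ l, D (genR ι i l) = if l = k then 1 else 0 := by
    intro l
    rw [hD, genR, pderiv_X, Pi.single_apply]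
    simp
  have hDj : ∀ j, j ≠ i → ∀ l, D (genR ι j l) = 0 := by
    intro j hj l
    rw [hD, genR, pderiv_X_of_ne]
    intro h
    exact hj (Prod.mk.inj h).1
  have hsh := coefD_shift' D (genR ι i) k hDi F'
  refine ⟨MvPolynomial.map (algebraMap (GR ι) (GK ι)) (coefD D F'), ?_, ?_, ?_, ?_⟩
  · intro b c hF
    apply InV.map
    apply InV.coefD
    rw [← inV_map_iff hinj, hF']
    have := (InV.C (a := algebraMap (GR ι) (GK ι) a)).mul hF
    simpa only [zero_add] using this
  · intro j hj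
    rw [gen_eq, multGE_map_iff hinj]
    exact ((hm j _).mpr le_rfl).coefD D (hDj j hj)
  · rw [gen_eq, multGE_map_iff hinj]
    intro β hβ
    have h5 := congrArg (coeff β) hsh
    rw [coeff_coefD, coeff_add, h1 β (by omega), map_zero, h1.pderiv k β hβ, add_zero] at h5
    exact h5.symm
  · rw [gen_eq, multGE_map_iff hinj]
    intro hcon
    set β : Fin 2 →₀ ℕ := α - Finsupp.single k 1 with hβ
    have hβα : β + Finsupp.single k 1 = α := by
      rw [hβ]
      apply tsub_add_cancel_of_le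
      rw [Finsupp.single_le_iff]
      exact hk
    have hβm : β 0 + β 1 < m := by
      have h6 := congrArg Finsupp.degree hβα
      rw [map_add, Finsupp.degree_single, degree_two, degree_two] at h6
      omega
    have h5 := congrArg (coeff β) hsh
    rw [coeff_coefD, coeff_add, h1 β hβm, map_zero, hcon β hβm, zero_add, ← pderiv_shift,
      coeff_pderiv, hβα] at h5
    rcases mul_eq_zero.mp h5.symm with h | h
    · exact hne h
    · have h7 : ((β k + 1 : ℕ) : GR ι) ≠ 0 := Nat.cast_ne_zero.mpr (Nat.succ_ne_zero _)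
      apply h7
      push_cast
      exact h

end Clear

end Vale.Agent.P279
end
end

section

section

namespace Vale.Agent.P279

open MvPolynomial

namespace Bez

/-! ### Orders of vanishing through powers of the ideal of the variables -/

theorem degree_two (α : Fin 2 →₀ ℕ) : Finsupp.degree α = α 0 + α 1 := by
  rw [Finsupp.degree_eq_sum, Fin.sum_univ_two]

theorem multGE_iff {R : Type*} [CommRing R] (q : Fin 2 → R) (m : ℕ)
    (P : MvPolynomial (Fin 2) R) :
    MultGE q m P ↔ shift q P ∈ idealOfVars (Fin 2) R ^ m := by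
  rw [mem_pow_idealOfVars_iff']
  simp only [MultGE, degree_two]

theorem multGE_mul {R : Type*} [CommRing R] {q : Fin 2 → R} {m m' : ℕ}
    {P Q : MvPolynomial (Fin 2) R} (hP : MultGE q m P) (hQ : MultGE q m' Q) :
    MultGE q (m + m') (P * Q) := by
  rw [multGE_iff] at *
  rw [map_mul, pow_add]
  exact Ideal.mul_mem_mul hP hQ

theorem multGE_add {R : Type*} [CommRing R] {q : Fin 2 → R} {m : ℕ}
    {P Q : MvPolynomial (Fin 2) R} (hP : MultGE q m P) (hQ : MultGE q m Q) :
    MultGE q m (P + Q) := by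
  rw [multGE_iff] at *
  rw [map_add]
  exact add_mem hP hQ

theorem shift_X {R : Type*} [CommRing R] (q : Fin 2 → R) (k : Fin 2) :
    shift q (X k) = X k + C (q k) := by
  simp [shift]

theorem shift_C {R : Type*} [CommRing R] (q : Fin 2 → R) (a : R) :
    shift q (C a) = C a := by
  simp [shift]

theorem shift_shift_neg {R : Type*} [CommRing R] (q : Fin 2 → R) (P : MvPolynomial (Fin 2) R) :
    shift q (shift (-q) P) = P := by
  have h : (shift q).comp (shift (-q)) = AlgHom.id R (MvPolynomial (Fin 2) R) := by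
    apply MvPolynomial.algHom_ext
    intro k
    simp [shift]
  exact DFunLike.congr_fun h P

/-! ### Lattice point counts -/

/-- The pairs counted. -/
def bset (k l : ℕ) : Set (Fin 2 →₀ ℕ) := {δ | δ 0 + δ 1 < k ∧ δ 1 < l}

noncomputable def bequiv (k l : ℕ) : bset k l ≃ (Σ j : Fin l, Fin (k - j)) where
  toFun δ := ⟨⟨δ.1 1, δ.2.2⟩, ⟨δ.1 0, by have := δ.2.1; simp only; omega⟩⟩
  invFun s := ⟨Finsupp.equivFunOnFinite.symm ![(s.2 : ℕ), (s.1 : ℕ)], by
    have h1 := s.1.2
    have h2 := s.2.2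
    constructor
    · simp
      omega
    · simp⟩
  left_inv δ := by
    ext i
    fin_cases i <;> simp
  right_inv s := by
    obtain ⟨⟨j, hj⟩, ⟨i, hi⟩⟩ := s
    simp

instance bfinite (k l : ℕ) : Finite (bset k l) := Finite.of_equiv _ (bequiv k l).symm

noncomputable instance bfintype (k l : ℕ) : Fintype (bset k l) := Fintype.ofFinite _

theorem card_bset (k l : ℕ) (h : l ≤ k) :
    2 * (Fintype.card (bset k l) : ℤ) = l * (2 * k - l + 1) := by
  rw [Fintype.card_congr (bequiv k l), Fintype.card_sigma]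
  simp only [Fintype.card_fin]
  rw [Fin.sum_univ_eq_sum_range (fun j => k - j) l]
  induction l with
  | zero => simp only [Finset.range_zero, Finset.sum_empty, CharP.cast_eq_zero, mul_zero, sub_zero, zero_mul]
  | succ l ih =>
    rw [Finset.sum_range_succ]
    have h2 := ih (by omega)
    push_cast [Nat.cast_sub (show l ≤ k by omega)] at h2 ⊢
    linarith only [h2]

/-! ### Spaces of polynomials -/

variable {K : Type*} [Field K]

variable (K) in
/-- Polynomials supported in `bset k l`. -/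
noncomputable def V (k l : ℕ) : Submodule K (MvPolynomial (Fin 2) K) :=
  restrictSupport K (bset k l)

theorem mem_V {k l : ℕ} {P : MvPolynomial (Fin 2) K} :
    P ∈ V K k l ↔ ∀ δ ∈ P.support, δ 0 + δ 1 < k ∧ δ 1 < l := by
  rw [V, mem_restrictSupport_iff]
  rfl

instance finite_V (k l : ℕ) : Module.Finite K (V K k l) :=
  Module.Finite.of_basis (basisRestrictSupport K (bset k l))

theorem finrank_V (k l : ℕ) (h : l ≤ k) :
    2 * (Module.finrank K (V K k l) : ℤ) = l * (2 * k - l + 1) := by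
  rw [V, Module.finrank_eq_card_basis (basisRestrictSupport K (bset k l)), card_bset k l h]

/-! ### Jets -/

variable {ι : Type*}

/-- The jets at the points `q i` of order `N i`. -/
noncomputable def jet (q : ι → Fin 2 → K) (N : ι → ℕ) :
    MvPolynomial (Fin 2) K →ₗ[K] (∀ i, bset (N i) (N i) → K) :=
  LinearMap.pi fun i => LinearMap.pi fun α => (lcoeff K α.1) ∘ₗ (shift (q i)).toLinearMap

theorem jet_apply (q : ι → Fin 2 → K) (N : ι → ℕ) (P : MvPolynomial (Fin 2) K) (i : ι)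
    (α : bset (N i) (N i)) : jet q N P i α = coeff α.1 (shift (q i) P) := rfl

theorem jet_eq_zero_iff (q : ι → Fin 2 → K) (N : ι → ℕ) (P : MvPolynomial (Fin 2) K) :
    jet q N P = 0 ↔ ∀ i, MultGE (q i) (N i) P := by
  constructor
  · intro h i α hα
    have := congrFun (congrFun h i) ⟨α, ⟨hα, by omega⟩⟩
    rwa [jet_apply] at this
  · intro h
    funext i α
    exact h i α.1 α.2.1

theorem coprime_comap {p q : Fin 2 → K} (h : p ≠ q) :
    IsCoprime (Ideal.comap (shift p) (idealOfVars (Fin 2) K))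
      (Ideal.comap (shift q) (idealOfVars (Fin 2) K)) := by
  obtain ⟨k, hk⟩ := Function.ne_iff.mp h
  have key : ∀ (r : Fin 2 → K) (a : K),
      C a * (X k - C (r k)) ∈ Ideal.comap (shift r) (idealOfVars (Fin 2) K) := by
    intro r a
    rw [Ideal.mem_comap, map_mul, map_sub, shift_X, shift_C, shift_C, add_sub_cancel_right]
    exact Ideal.mul_mem_left _ _ (Ideal.subset_span ⟨k, rfl⟩)
  rw [Ideal.isCoprime_iff_exists]
  refine ⟨_, key p (-(p k - q k)⁻¹), _, key q ((p k - q k)⁻¹), ?_⟩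
  have h0 : p k - q k ≠ 0 := sub_ne_zero.mpr hk
  have h1 : (C ((p k - q k)⁻¹) : MvPolynomial (Fin 2) K) * (C (p k) - C (q k)) = 1 := by
    rw [← map_sub, ← map_mul, inv_mul_cancel₀ h0, map_one]
  rw [map_neg]
  linear_combination h1

theorem jet_surj [Finite ι] {q : ι → Fin 2 → K} (hq : Function.Injective q) (N : ι → ℕ) :
    Function.Surjective (jet q N) := by
  classical
  intro w
  set P' : ι → MvPolynomial (Fin 2) K := fun i => ∑ α : bset (N i) (N i), monomial α.1 (w i α)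
    with hP'
  have hcop : Pairwise (Function.onFun IsCoprime
      (fun i => Ideal.comap (shift (q i)) (idealOfVars (Fin 2) K ^ (N i)))) := by
    intro i j hij
    have h1 := (coprime_comap (fun h => hij (hq h) : q i ≠ q j)).pow (m := N i) (n := N j)
    rw [Function.onFun, Ideal.isCoprime_iff_codisjoint]
    rw [Ideal.isCoprime_iff_codisjoint] at h1
    exact h1.mono (Ideal.le_comap_pow _ _) (Ideal.le_comap_pow _ _)
  obtain ⟨P, hP⟩ := Ideal.exists_forall_sub_mem_ideal hcop (fun i => shift (-(q i)) (P' i))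
  refine ⟨P, ?_⟩
  funext i α
  have h2 := hP i
  rw [Ideal.mem_comap, map_sub, shift_shift_neg, mem_pow_idealOfVars_iff'] at h2
  have h3 := h2 α.1 (by rw [degree_two]; exact α.2.1)
  rw [coeff_sub, sub_eq_zero] at h3
  rw [jet_apply, h3, hP']
  simp only [coeff_sum, coeff_monomial]
  rw [Finset.sum_eq_single α]
  · simp
  · intro b _ hb
    rw [if_neg]
    exact fun h => hb (Subtype.ext h)
  · simp only [Finset.mem_univ, not_true_eq_false, ↓reduceIte, IsEmpty.forall_iff]

theorem jet_bound [Finite ι] {q : ι → Fin 2 → K} (hq : Function.Injective q) (N : ι → ℕ) :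
    ∃ D : ℕ, ∀ w, ∃ P, P.totalDegree ≤ D ∧ jet q N P = w := by
  set S : ℕ →o Submodule K (∀ i, bset (N i) (N i) → K) :=
    ⟨fun D => Submodule.map (jet q N) (restrictTotalDegree (Fin 2) K D), by
      intro a b hab
      apply Submodule.map_mono
      intro P hP
      rw [mem_restrictTotalDegree] at *
      exact hP.trans hab⟩ with hS
  obtain ⟨n, hn⟩ := monotone_stabilizes_iff_noetherian.mpr inferInstance S
  refine ⟨n, fun w => ?_⟩
  obtain ⟨P, hP⟩ := jet_surj hq N w
  have h1 : w ∈ S (max n P.totalDegree) := by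
    refine ⟨P, ?_, hP⟩
    exact (mem_restrictTotalDegree _ _ _).mpr (le_max_right _ _)
  rw [← hn _ (le_max_left _ _)] at h1
  obtain ⟨Q, hQ, hQ'⟩ := h1
  exact ⟨Q, (mem_restrictTotalDegree _ _ _).mp hQ, hQ'⟩

theorem finrank_target [Fintype ι] (N : ι → ℕ) :
    2 * (Module.finrank K (∀ i, bset (N i) (N i) → K) : ℤ) = ∑ i, (N i : ℤ) * (N i + 1) := by
  rw [Module.finrank_pi_fintype]
  simp only [Module.finrank_fintype_fun_eq_card]
  push_cast
  rw [Finset.mul_sum]
  refine Finset.sum_congr rfl fun i _ => ?_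
  rw [card_bset _ _ le_rfl]
  ring

/-! ### Linear algebra -/

theorem rank_nullity {E E' : Type*} [AddCommGroup E] [Module K E] [AddCommGroup E'] [Module K E']
    (f : E →ₗ[K] E') (S : Submodule K E) [Module.Finite K S] :
    Module.finrank K (S.map f) + Module.finrank K (S ⊓ LinearMap.ker f : Submodule K E)
      = Module.finrank K S := by
  rw [← LinearMap.finrank_range_add_finrank_ker (f.domRestrict S), LinearMap.range_domRestrict,
    ← Submodule.map_comap_subtype, Submodule.finrank_map_subtype_eq]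
  rfl

theorem fiber_le [Fintype ι] (q : ι → Fin 2 → K) (N : ι → ℕ) (k l : ℕ) :
    Module.finrank K (V K k l) ≤ Module.finrank K (∀ i, bset (N i) (N i) → K) +
      Module.finrank K (V K k l ⊓ LinearMap.ker (jet q N) : Submodule K (MvPolynomial (Fin 2) K)) := by
  rw [← rank_nullity (jet q N) (V K k l)]
  gcongr
  exact Submodule.finrank_le _

theorem fiber_eq [Fintype ι] (q : ι → Fin 2 → K) (N : ι → ℕ) (k l D : ℕ) (hD : D < l)
    (hlk : l ≤ k) (h : ∀ w, ∃ P, P.totalDegree ≤ D ∧ jet q N P = w) :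
    Module.finrank K (V K k l) = Module.finrank K (∀ i, bset (N i) (N i) → K) +
      Module.finrank K (V K k l ⊓ LinearMap.ker (jet q N) : Submodule K (MvPolynomial (Fin 2) K)) := by
  rw [← rank_nullity (jet q N) (V K k l)]
  congr 1
  have : (V K k l).map (jet q N) = ⊤ := by
    rw [eq_top_iff]
    intro w _
    obtain ⟨P, hP, hw⟩ := h w
    refine ⟨P, ?_, hw⟩
    rw [SetLike.mem_coe, mem_V]
    intro δ hδ
    have h1 := le_totalDegree hδ
    rw [Finsupp.sum_fintype _ _ (fun _ => rfl), Fin.sum_univ_two] at h1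
    omega
  rw [this, finrank_top]

theorem inV_mul {R : Type*} [CommRing R] {b c b' c' : ℕ} {P Q : MvPolynomial (Fin 2) R}
    (hP : InV b c P) (hQ : InV b' c' Q) : InV (b + b') (c + c') (P * Q) := by
  classical
  intro δ hδ
  have h1 := MvPolynomial.support_mul P Q hδ
  obtain ⟨x, hx, y, hy, rfl⟩ := Finset.mem_add.mp h1
  have h2 := hP x hx
  have h3 := hQ y hy
  simp only [Finsupp.add_apply]
  omega

theorem inV_add {R : Type*} [CommRing R] {b c : ℕ} {P Q : MvPolynomial (Fin 2) R}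
    (hP : InV b c P) (hQ : InV b c Q) : InV b c (P + Q) := by
  classical
  intro δ hδ
  have h1 := MvPolynomial.support_add hδ
  rcases Finset.mem_union.mp h1 with h | h
  · exact hP δ h
  · exact hQ δ h

theorem mem_V_iff_inV {k l b c : ℕ} (hk : k = b + 1) (hl : l + c = b + 1)
    {P : MvPolynomial (Fin 2) K} : P ∈ V K k l ↔ InV b c P := by
  rw [mem_V]
  refine forall₂_congr fun δ _ => ?_
  omega

theorem main_ineq [Fintype ι] (q : ι → Fin 2 → K) (hq : Function.Injective q)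
    (b c : ℕ) (F H : MvPolynomial (Fin 2) K) (hF : Irreducible F) (hb : F.totalDegree = b)
    (hFV : InV b c F) (hH : InV b c H) (hdvd : ¬ F ∣ H) (m m' : ι → ℕ)
    (h1 : ∀ i, MultGE (q i) (m i) F) (h2 : ∀ i, MultGE (q i) (m' i) H) :
    c ^ 2 + ∑ i, m i * m' i ≤ b ^ 2 := by
  classical
  obtain ⟨D, hD⟩ := jet_bound hq (fun i => m i + m' i)
  set V1 := V K (D + b + 2 * c + 1) (D + b + c + 1) with hV1
  set V0 := V K (D + 2 * c + 1) (D + 2 * c + 1) with hV0
  set VT := V K (D + 2 * b + 2 * c + 1) (D + 2 * b + 1) with hVT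
  set UA : Submodule K (MvPolynomial (Fin 2) K) := V1 ⊓ LinearMap.ker (jet q m') with hUA
  set UB : Submodule K (MvPolynomial (Fin 2) K) := V1 ⊓ LinearMap.ker (jet q m) with hUB
  set W : Submodule K (MvPolynomial (Fin 2) K) :=
    VT ⊓ LinearMap.ker (jet q (fun i => m i + m' i)) with hW
  have e1 := fiber_le q m' (D + b + 2 * c + 1) (D + b + c + 1)
  have e2 := fiber_le q m (D + b + 2 * c + 1) (D + b + c + 1)
  have e3 := fiber_eq q (fun i => m i + m' i) (D + 2 * b + 2 * c + 1) (D + 2 * b + 1) D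
    (by omega) (by omega) hD
  have d1 := finrank_V (K := K) (D + b + 2 * c + 1) (D + b + c + 1) (by omega)
  have d0 := finrank_V (K := K) (D + 2 * c + 1) (D + 2 * c + 1) (by omega)
  have dT := finrank_V (K := K) (D + 2 * b + 2 * c + 1) (D + 2 * b + 1) (by (clear * -; omega))
  have t1 := finrank_target (K := K) m
  have t2 := finrank_target (K := K) m'
  have t3 := finrank_target (K := K) (fun i => m i + m' i)
  rw [← hV1] at e1 e2 d1
  rw [← hVT] at e3 dT
  rw [← hV0] at d0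
  rw [← hUA] at e1
  rw [← hUB] at e2
  rw [← hW] at e3
  have : Module.Finite K V1 := finite_V _ _
  have : Module.Finite K V0 := finite_V _ _
  have : Module.Finite K VT := finite_V _ _
  have : Module.Finite K UA := Submodule.finiteDimensional_inf_left _ _
  have : Module.Finite K UB := Submodule.finiteDimensional_inf_left _ _
  have : Module.Finite K W := Submodule.finiteDimensional_inf_left _ _
  set Φ : (UA × UB) →ₗ[K] MvPolynomial (Fin 2) K :=
    LinearMap.coprod ((LinearMap.mulLeft K F) ∘ₗ UA.subtype) ((LinearMap.mulLeft K H) ∘ₗ UB.subtype)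
    with hΦ
  have hΦa : ∀ x : UA × UB, Φ x = F * (x.1 : MvPolynomial (Fin 2) K) + H * x.2 := by
    intro x
    simp only [hΦ, LinearMap.coprod_apply, LinearMap.coe_comp, Submodule.coe_subtype, Function.comp_apply, LinearMap.mulLeft_apply]
  have e4 := LinearMap.finrank_range_add_finrank_ker Φ
  rw [Module.finrank_prod] at e4
  have e5 : Module.finrank K (LinearMap.range Φ) ≤ Module.finrank K W := by
    apply Submodule.finrank_mono
    rintro _ ⟨x, rfl⟩
    obtain ⟨⟨A, hA⟩, ⟨B, hB⟩⟩ := x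
    rw [hΦa]
    simp only
    rw [hUA, Submodule.mem_inf, LinearMap.mem_ker, jet_eq_zero_iff, hV1,
      mem_V_iff_inV (b := D + b + 2 * c) (c := c) rfl (by omega)] at hA
    rw [hUB, Submodule.mem_inf, LinearMap.mem_ker, jet_eq_zero_iff, hV1,
      mem_V_iff_inV (b := D + b + 2 * c) (c := c) rfl (by omega)] at hB
    rw [hW, Submodule.mem_inf, LinearMap.mem_ker, jet_eq_zero_iff, hVT,
      mem_V_iff_inV (b := b + (D + b + 2 * c)) (c := c + c) (by omega) (by omega)]
    refine ⟨inV_add (inV_mul hFV hA.1) (inV_mul hH hB.1), fun i => ?_⟩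
    refine multGE_add (multGE_mul (h1 i) (hA.2 i)) ?_
    rw [add_comm]
    exact multGE_mul (h2 i) (hB.2 i)
  have hF0 : F ≠ 0 := hF.ne_zero
  have e6 : Module.finrank K (LinearMap.ker Φ) ≤ Module.finrank K V0 := by
    set j : LinearMap.ker Φ →ₗ[K] MvPolynomial (Fin 2) K :=
      (UB.subtype ∘ₗ LinearMap.snd K UA UB) ∘ₗ (LinearMap.ker Φ).subtype with hj
    have hja : ∀ x : LinearMap.ker Φ, j x = (x.1.2 : MvPolynomial (Fin 2) K) := fun x => rfl
    have hinj : Function.Injective j := by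
      rw [injective_iff_map_eq_zero]
      intro x hx
      rw [hja] at hx
      have h3 := x.2
      rw [LinearMap.mem_ker, hΦa, hx, mul_zero, add_zero] at h3
      have h4 := (mul_eq_zero.mp h3).resolve_left hF0
      apply Subtype.ext
      apply Prod.ext
      · exact Subtype.ext h4
      · exact Subtype.ext hx
    have hr : LinearMap.range j ≤ V0.map (LinearMap.mulLeft K F) := by
      rintro _ ⟨x, rfl⟩
      rw [hja]
      have h3 := x.2
      rw [LinearMap.mem_ker, hΦa] at h3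
      have h4 : F ∣ H * (x.1.2 : MvPolynomial (Fin 2) K) :=
        ⟨-(x.1.1 : MvPolynomial (Fin 2) K), by linear_combination h3⟩
      obtain ⟨R, hR⟩ := (hF.prime.dvd_or_dvd h4).resolve_left hdvd
      refine ⟨R, ?_, hR.symm⟩
      by_cases hR0 : R = 0
      · rw [hR0]; exact zero_mem _
      have hB := mem_V.mp (Submodule.mem_inf.mp x.1.2.2).1
      have h5 : (x.1.2 : MvPolynomial (Fin 2) K).totalDegree ≤ D + b + 2 * c := by
        rw [totalDegree]
        apply Finset.sup_le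
        intro δ hδ
        rw [Finsupp.sum_fintype _ _ (fun _ => rfl), Fin.sum_univ_two]
        have := (hB δ hδ).1
        omega
      rw [hR, totalDegree_mul_of_isDomain hF0 hR0, hb] at h5
      rw [SetLike.mem_coe, hV0, mem_V]
      intro δ hδ
      have h6 := le_totalDegree hδ
      rw [Finsupp.sum_fintype _ _ (fun _ => rfl), Fin.sum_univ_two] at h6
      omega
    calc Module.finrank K (LinearMap.ker Φ) = Module.finrank K (LinearMap.range j) :=
          (LinearMap.finrank_range_of_inj hinj).symm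
      _ ≤ Module.finrank K (V0.map (LinearMap.mulLeft K F)) := Submodule.finrank_mono hr
      _ ≤ _ := Submodule.finrank_map_le _ _
  have t4 : ∑ i, ((m i + m' i : ℕ) : ℤ) * (((m i + m' i : ℕ) : ℤ) + 1) =
      ∑ i, (m i : ℤ) * (m i + 1) + ∑ i, (m' i : ℤ) * (m' i + 1) + 2 * ∑ i, (m i : ℤ) * m' i := by
    rw [Finset.mul_sum, ← Finset.sum_add_distrib, ← Finset.sum_add_distrib]
    refine Finset.sum_congr rfl fun i _ => ?_
    push_cast
    ring
  rw [t4] at t3
  zify at e1 e2 e3 e4 e5 e6 ⊢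
  push_cast at d1 d0 dT
  linarith

end Bez

open Bez in
/-- The inequality of Bezout with multiplicities: if `F` is irreducible of total degree `b` and of
degree `b - c` in the second variable, and `H` is supported in the same trapezoid and is not
divisible by `F`, then the multiplicities satisfy `c ^ 2 + ∑ m i * m' i ≤ b ^ 2`. -/
theorem bezout {K : Type*} [Field K] {ι : Type*} [Fintype ι] (q : ι → Fin 2 → K)
    (hq : Function.Injective q) (b c : ℕ) (F H : MvPolynomial (Fin 2) K) (hF : Irreducible F)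
    (hb : F.totalDegree = b) (hc : F.degreeOf 1 + c = b) (hH : InV b c H) (hdvd : ¬ F ∣ H)
    (m m' : ι → ℕ) (h1 : ∀ i, MultGE (q i) (m i) F) (h2 : ∀ i, MultGE (q i) (m' i) H) :
    c ^ 2 + ∑ i, m i * m' i ≤ b ^ 2 := by
  refine main_ineq q hq b c F H hF hb ?_ hH hdvd m m' h1 h2
  intro δ hδ
  have h3 := le_totalDegree hδ
  rw [Finsupp.sum_fintype _ _ (fun _ => rfl), Fin.sum_univ_two] at h3
  have h4 := monomial_le_degreeOf 1 hδ
  omega

end Vale.Agent.P279
end
end

section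

section

namespace Vale.Agent.P279

open MvPolynomial

namespace Gen

/-! ### The matrix of conditions -/

/-- The exponents of the trapezoid. -/
def Cols (b c : ℕ) : Set (Fin 2 →₀ ℕ) := {δ | δ 0 + δ 1 ≤ b ∧ δ 1 + c ≤ b}

/-- The exponents of order less than `k`. -/
def RowsAt (k : ℕ) : Set (Fin 2 →₀ ℕ) := {δ | δ 0 + δ 1 < k}

theorem finite_of_bdd (S : Set (Fin 2 →₀ ℕ)) (N : ℕ) (h : ∀ δ ∈ S, δ 0 + δ 1 ≤ N) : S.Finite := by
  have hinj : Function.Injective (fun δ : Fin 2 →₀ ℕ => (δ 0, δ 1)) := by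
    intro x y hxy
    have h1 := Prod.mk.inj hxy
    ext i
    fin_cases i
    · exact h1.1
    · exact h1.2
  refine Set.Finite.of_finite_image (f := fun δ : Fin 2 →₀ ℕ => (δ 0, δ 1)) ?_ hinj.injOn
  refine Set.Finite.subset (Set.Finite.prod (Set.finite_Iic N) (Set.finite_Iic N)) ?_
  rintro _ ⟨δ, hδ, rfl⟩
  have := h δ hδ
  simp only [Set.mem_prod, Set.mem_Iic]
  omega

instance (b c : ℕ) : Finite (Cols b c) := finite_of_bdd _ b fun _ h => h.1

instance (k : ℕ) : Finite (RowsAt k) := finite_of_bdd _ k fun _ h => le_of_lt h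

noncomputable instance (b c : ℕ) : Fintype (Cols b c) := Fintype.ofFinite _

noncomputable instance (k : ℕ) : Fintype (RowsAt k) := Fintype.ofFinite _

variable {ι : Type*}

/-- The matrix of the vanishing conditions. -/
noncomputable def mat {R : Type*} [CommRing R] (b c : ℕ) (m : ι → ℕ) (q : ι → Fin 2 → R) :
    Matrix (Σ i, RowsAt (m i)) (Cols b c) R :=
  fun x δ => coeff x.2.1 (shift (q x.1) (monomial δ.1 1))

theorem mat_map {R S : Type*} [CommRing R] [CommRing S] (φ : R →+* S) (b c : ℕ) (m : ι → ℕ)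
    (q : ι → Fin 2 → R) : (mat b c m q).map φ = mat b c m (fun i k => φ (q i k)) := by
  ext x δ
  simp only [Matrix.map_apply, mat]
  rw [← coeff_map, map_shift, map_monomial, map_one]

/-- The polynomial with a given vector of coefficients. -/
noncomputable def poly {R : Type*} [CommRing R] {b c : ℕ} (x : Cols b c → R) :
    MvPolynomial (Fin 2) R :=
  ∑ δ, monomial δ.1 (x δ)

theorem coeff_poly {R : Type*} [CommRing R] {b c : ℕ} (x : Cols b c → R) (δ : Cols b c) :
    coeff δ.1 (poly x) = x δ := by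
  classical
  simp only [poly, coeff_sum, coeff_monomial]
  rw [Finset.sum_eq_single δ]
  · simp
  · intro e _ he
    rw [if_neg]
    exact fun h => he (Subtype.ext h)
  · simp only [Finset.mem_univ, not_true_eq_false, ↓reduceIte, IsEmpty.forall_iff]

theorem inV_poly {R : Type*} [CommRing R] {b c : ℕ} (x : Cols b c → R) : InV b c (poly x) := by
  classical
  refine InV.sum fun δ _ => ?_
  intro ε hε
  have h := support_monomial_subset hε
  rw [Finset.mem_singleton] at h
  rw [h]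
  exact δ.2

theorem exists_poly {R : Type*} [CommRing R] {b c : ℕ} {P : MvPolynomial (Fin 2) R}
    (hP : InV b c P) : P = poly (fun δ : Cols b c => coeff δ.1 P) := by
  classical
  ext ε
  by_cases hε : ε ∈ Cols b c
  · exact (coeff_poly (fun δ : Cols b c => coeff δ.1 P) ⟨ε, hε⟩).symm
  · have h1 : coeff ε P = 0 := by
      by_contra h
      exact hε (hP ε (mem_support_iff.mpr h))
    rw [h1, poly, coeff_sum]
    symm
    refine Finset.sum_eq_zero fun δ _ => ?_
    rw [coeff_monomial, if_neg]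
    rintro rfl
    exact hε δ.2

theorem coeff_shift_poly {R : Type*} [CommRing R] {b c : ℕ} (m : ι → ℕ) (q : ι → Fin 2 → R)
    (x : Cols b c → R) (y : Σ i, RowsAt (m i)) :
    coeff y.2.1 (shift (q y.1) (poly x)) = (mat b c m q).mulVec x y := by
  rw [poly, map_sum, coeff_sum, Matrix.mulVec, dotProduct]
  refine Finset.sum_congr rfl fun δ _ => ?_
  have h : (monomial δ.1 (x δ) : MvPolynomial (Fin 2) R) = C (x δ) * monomial δ.1 1 := by
    rw [C_mul_monomial, mul_one]
  rw [h, map_mul, shift_C, coeff_C_mul, mat, mul_comm]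

theorem multGE_poly_iff {R : Type*} [CommRing R] {b c : ℕ} (m : ι → ℕ) (q : ι → Fin 2 → R)
    (x : Cols b c → R) :
    (∀ i, MultGE (q i) (m i) (poly x)) ↔ (mat b c m q).mulVec x = 0 := by
  constructor
  · intro h
    funext y
    rw [← coeff_shift_poly]
    exact h y.1 y.2.1 y.2.2
  · intro h i α hα
    have := coeff_shift_poly m q x ⟨i, ⟨α, hα⟩⟩
    rw [h] at this
    exact this

theorem exists_iff {R : Type*} [CommRing R] (b c : ℕ) (m : ι → ℕ) (q : ι → Fin 2 → R) :
    (∃ P : MvPolynomial (Fin 2) R, P ≠ 0 ∧ InV b c P ∧ ∀ i, MultGE (q i) (m i) P) ↔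
      ∃ x : Cols b c → R, x ≠ 0 ∧ (mat b c m q).mulVec x = 0 := by
  constructor
  · rintro ⟨P, hP0, hV, hm⟩
    rw [exists_poly hV] at hP0 hm
    refine ⟨_, ?_, (multGE_poly_iff m q _).mp hm⟩
    intro h
    apply hP0
    rw [h]
    simp only [poly, Pi.zero_apply, monomial_zero, Finset.sum_const_zero]
  · rintro ⟨x, hx, h⟩
    refine ⟨poly x, ?_, inV_poly x, (multGE_poly_iff m q x).mpr h⟩
    intro h0
    apply hx
    funext δ
    rw [← coeff_poly x δ, h0, coeff_zero]
    rfl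

theorem exists_left_inverse {K : Type*} [Field K] {I J : Type*} [Fintype I] [Fintype J]
    [DecidableEq J] [DecidableEq I] (M : Matrix I J K) (h : ∀ x, M.mulVec x = 0 → x = 0) :
    ∃ L : Matrix J I K, L * M = 1 := by
  have hker : LinearMap.ker (Matrix.toLin' M) = ⊥ := by
    rw [LinearMap.ker_eq_bot']
    intro x hx
    exact h x (by rwa [Matrix.toLin'_apply] at hx)
  obtain ⟨g, hg⟩ := LinearMap.exists_leftInverse_of_injective (Matrix.toLin' M) hker
  refine ⟨LinearMap.toMatrix' g, ?_⟩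
  have := congrArg LinearMap.toMatrix' hg
  rwa [LinearMap.toMatrix'_comp, LinearMap.toMatrix'_toLin', LinearMap.toMatrix'_id] at this

end Gen

open Gen

theorem eff_of_generic {ι : Type*} [Fintype ι] {L : Type*} [Field L] [Algebra ℚ L]
    (v : ι → Fin 2 → L) (hv : AlgebraicIndependent ℚ (fun p : ι × Fin 2 => v p.1 p.2))
    (b c : ℕ) (m : ι → ℕ) (P : MvPolynomial (Fin 2) L) (hP : P ≠ 0) (hV : InV b c P)
    (hm : ∀ i, MultGE (v i) (m i) P) : Eff b c m := by
  classical
  intro q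
  rw [exists_iff]
  obtain ⟨x, hx, hMx⟩ := (exists_iff b c m v).mp ⟨P, hP, hV, hm⟩
  by_contra hcon
  push Not at hcon
  obtain ⟨L0, hL0⟩ := exists_left_inverse (mat b c m q) (by
    intro y hy
    by_contra h
    exact hcon y h hy)
  set U : ι → Fin 2 → MvPolynomial (ι × Fin 2) ℚ := fun i k => X (i, k) with hU
  set Δ : MvPolynomial (ι × Fin 2) ℚ := (L0.map (C : ℚ →+* MvPolynomial (ι × Fin 2) ℚ) *
    mat b c m U).det with hΔ
  have h1 : eval (fun p : ι × Fin 2 => q p.1 p.2) Δ = 1 := by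
    rw [hΔ, RingHom.map_det, RingHom.mapMatrix_apply, Matrix.map_mul, mat_map]
    have e1 : (L0.map (C : ℚ →+* MvPolynomial (ι × Fin 2) ℚ)).map
        (eval (fun p : ι × Fin 2 => q p.1 p.2)) = L0 := by
      ext i j
      simp only [Matrix.map_apply, eval_C]
    have e2 : (fun i k => eval (fun p : ι × Fin 2 => q p.1 p.2) (U i k)) = q := by
      funext i k
      simp [hU]
    rw [e1, e2, hL0, Matrix.det_one]
  have h2 : Δ ≠ 0 := by
    intro h
    rw [h, map_zero] at h1
    exact zero_ne_one h1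
  have h3 : aeval (fun p : ι × Fin 2 => v p.1 p.2) Δ ≠ 0 := by
    intro h
    exact h2 (algebraicIndependent_iff.mp hv Δ h)
  apply h3
  have h4 : aeval (fun p : ι × Fin 2 => v p.1 p.2) Δ =
      (L0.map (algebraMap ℚ L) * mat b c m v).det := by
    rw [hΔ]
    change ((aeval (fun p : ι × Fin 2 => v p.1 p.2) :
      MvPolynomial (ι × Fin 2) ℚ →ₐ[ℚ] L) : MvPolynomial (ι × Fin 2) ℚ →+* L) _ = _
    rw [RingHom.map_det, RingHom.mapMatrix_apply, Matrix.map_mul, mat_map]
    have e1 : (L0.map (C : ℚ →+* MvPolynomial (ι × Fin 2) ℚ)).map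
        ((aeval (fun p : ι × Fin 2 => v p.1 p.2) :
      MvPolynomial (ι × Fin 2) ℚ →ₐ[ℚ] L) : MvPolynomial (ι × Fin 2) ℚ →+* L) =
        L0.map (algebraMap ℚ L) := by
      ext i j
      simp
    have e2 : (fun i k => ((aeval (fun p : ι × Fin 2 => v p.1 p.2) :
      MvPolynomial (ι × Fin 2) ℚ →ₐ[ℚ] L) : MvPolynomial (ι × Fin 2) ℚ →+* L) (U i k)) = v := by
      funext i k
      simp [hU]
    rw [e1, e2]
  rw [h4, ← Matrix.exists_mulVec_eq_zero_iff]
  refine ⟨x, hx, ?_⟩
  rw [← Matrix.mulVec_mulVec, hMx, Matrix.mulVec_zero]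

theorem effGen_of_eff {ι : Type*} [Fintype ι] (b c : ℕ) (m : ι → ℕ) (h : Eff b c m) :
    ∃ P : MvPolynomial (Fin 2) (GK ι), P ≠ 0 ∧ InV b c P ∧ ∀ i, MultGE (gen ι i) (m i) P := by
  classical
  rw [exists_iff]
  by_contra hcon
  push Not at hcon
  obtain ⟨L0, hL0⟩ := exists_left_inverse (mat b c m (gen ι)) (by
    intro y hy
    by_contra h
    exact hcon y h hy)
  have hinj : Function.Injective (algebraMap (GR ι) (GK ι)) := IsFractionRing.injective _ _
  obtain ⟨a, ha⟩ := IsLocalization.exist_integer_multiples_of_finite (nonZeroDivisors (GR ι))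
    (fun p : Cols b c × (Σ i, RowsAt (m i)) => L0 p.1 p.2)
  choose g hg using ha
  set L2 : Matrix (Cols b c) (Σ i, RowsAt (m i)) (GR ι) := fun i j => g (i, j) with hL2
  set U : ι → Fin 2 → GR ι := fun i k => X (i, k) with hU
  have hL2' : L2.map (algebraMap (GR ι) (GK ι)) = algebraMap (GR ι) (GK ι) a • L0 := by
    ext i j
    rw [Matrix.map_apply, hL2, hg (i, j), Matrix.smul_apply, Algebra.smul_def, smul_eq_mul]
  have hprod : L2 * mat b c m U = (a : GR ι) • (1 : Matrix (Cols b c) (Cols b c) (GR ι)) := by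
    have hm : Function.Injective (fun M : Matrix (Cols b c) (Cols b c) (GR ι) =>
        M.map (algebraMap (GR ι) (GK ι))) := Matrix.map_injective hinj
    apply hm
    simp only
    rw [Matrix.map_mul, hL2', mat_map]
    have e2 : (fun i k => algebraMap (GR ι) (GK ι) (U i k)) = gen ι := rfl
    rw [e2, Matrix.smul_mul, hL0]
    ext i j
    simp only [Matrix.smul_apply, Matrix.map_apply, smul_eq_mul, map_mul, Matrix.one_apply]
    split_ifs <;> simp
  have ha0 : (a : GR ι) ≠ 0 := nonZeroDivisors.ne_zero a.2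
  obtain ⟨z, hz⟩ : ∃ z : ι × Fin 2 → ℚ, eval z (a : GR ι) ≠ 0 := by
    by_contra hcon2
    push Not at hcon2
    apply ha0
    apply MvPolynomial.funext
    intro z
    rw [hcon2 z, map_zero]
  obtain ⟨x, hx, hMx⟩ := (exists_iff b c m (fun i k => z (i, k))).mp (h (fun i k => z (i, k)))
  have h5 := congrArg (fun M : Matrix (Cols b c) (Cols b c) (GR ι) => M.map (eval z)) hprod
  rw [Matrix.map_mul, mat_map] at h5
  have e3 : (fun i k => eval z (U i k)) = fun i k => z (i, k) := by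
    funext i k
    simp [hU]
  rw [e3] at h5
  have h6 := congrArg (fun M => Matrix.mulVec M x) h5
  rw [← Matrix.mulVec_mulVec, hMx, Matrix.mulVec_zero] at h6
  have h7 : ((a : GR ι) • (1 : Matrix (Cols b c) (Cols b c) (GR ι))).map (eval z) =
      (eval z (a : GR ι)) • (1 : Matrix (Cols b c) (Cols b c) ℚ) := by
    ext i j
    simp only [Matrix.map_apply, Matrix.smul_apply, Matrix.one_apply, smul_eq_mul, map_mul]
    split_ifs <;> simp
  rw [h7, Matrix.smul_mulVec, Matrix.one_mulVec] at h6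
  rcases smul_eq_zero.mp h6.symm with h8 | h8
  · exact hz h8
  · exact hx h8

theorem algebraicIndependent_gen (ι : Type*) :
    AlgebraicIndependent ℚ (fun p : ι × Fin 2 => gen ι p.1 p.2) := by
  rw [algebraicIndependent_iff]
  intro p hp
  have h : (aeval (fun p : ι × Fin 2 => gen ι p.1 p.2) : GR ι →ₐ[ℚ] GK ι) =
      IsScalarTower.toAlgHom ℚ (GR ι) (GK ι) := by
    apply MvPolynomial.algHom_ext
    intro k
    simp only [gen, Prod.mk.eta, aeval_X, IsScalarTower.coe_toAlgHom']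
  rw [h] at hp
  exact IsFractionRing.injective (GR ι) (GK ι) (by rw [map_zero]; exact hp)

end Vale.Agent.P279
end
end

section

section

namespace Vale.Agent.P279

open MvPolynomial

/-! ### Selecting an irreducible factor -/

theorem exists_irreducible_factor {K : Type*} [Field K] (N : MvPolynomial (Fin 2) K → ℝ)
    (hmul : ∀ P Q, P ≠ 0 → Q ≠ 0 → N (P * Q) = N P + N Q) (hunit : ∀ u, IsUnit u → N u = 0)
    {P : MvPolynomial (Fin 2) K} (hP : P ≠ 0) (hu : ¬ IsUnit P) (hN : N P ≤ 0) :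
    ∃ F, Irreducible F ∧ F ∣ P ∧ N F ≤ 0 := by
  by_contra hcon
  push Not at hcon
  have key : ∀ Q : MvPolynomial (Fin 2) K, Q ≠ 0 → (∀ F, Irreducible F → F ∣ Q → 0 < N F) →
      (0 ≤ N Q ∧ (¬ IsUnit Q → 0 < N Q)) := by
    intro Q
    induction Q using WfDvdMonoid.induction_on_irreducible with
    | zero => intro h; exact absurd rfl h
    | unit u hu => intro _ _; rw [hunit u hu]; exact ⟨le_rfl, fun h => absurd hu h⟩
    | mul a i ha hi ih =>
      intro _ h
      have h1 := (ih ha fun F hF hFa => h F hF (hFa.mul_left i)).1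
      have h2 := h i hi (dvd_mul_right i a)
      rw [hmul i a hi.ne_zero ha]
      exact ⟨by linarith only [h1, h2], fun _ => by linarith⟩
  have := (key P hP hcon).2 hu
  linarith

/-! ### Units and total degrees -/

theorem totalDegree_pos_of_irreducible {K : Type*} [Field K] {F : MvPolynomial (Fin 2) K}
    (hF : Irreducible F) : 1 ≤ F.totalDegree := by
  by_contra h
  have h0 : F.totalDegree = 0 := by omega
  rw [totalDegree_eq_zero_iff_eq_C] at h0
  have hne : coeff 0 F ≠ 0 := by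
    intro h1
    rw [h1, map_zero] at h0
    exact hF.ne_zero h0
  apply hF.not_isUnit
  rw [h0]
  exact (isUnit_iff_ne_zero.mpr hne).map C

theorem unit_eq_C {K : Type*} [Field K] {u : MvPolynomial (Fin 2) K} (hu : IsUnit u) :
    ∃ a : K, a ≠ 0 ∧ u = C a := by
  obtain ⟨v, hv⟩ := hu.exists_right_inv
  have hu0 : u ≠ 0 := left_ne_zero_of_mul_eq_one hv
  have hv0 : v ≠ 0 := right_ne_zero_of_mul_eq_one hv
  have h1 := totalDegree_mul_of_isDomain hu0 hv0
  rw [hv, totalDegree_one] at h1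
  have h2 : u.totalDegree = 0 := by omega
  rw [totalDegree_eq_zero_iff_eq_C] at h2
  refine ⟨coeff 0 u, ?_, h2⟩
  intro h3
  rw [h3, map_zero] at h2
  exact hu0 h2

theorem ordAt_C {K : Type*} [Field K] (q : Fin 2 → K) {a : K} (ha : a ≠ 0) :
    ordAt q (C a) = 0 := by
  have h := ordAt_le_totalDegree q (P := C a) (by simpa using ha)
  rw [totalDegree_C] at h
  omega

theorem degreeOf_le_totalDegree' {K : Type*} [Field K] (F : MvPolynomial (Fin 2) K) :
    F.degreeOf 1 ≤ F.totalDegree := degreeOf_le_totalDegree F 1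

/-! ### Bezout for curves of the same degree -/

theorem bezout_same {K : Type*} [Field K] {ι : Type*} [Fintype ι] (q : ι → Fin 2 → K)
    (hq : Function.Injective q) {F G : MvPolynomial (Fin 2) K} (hF : Irreducible F)
    (hG : G ≠ 0) (hd : G.totalDegree = F.totalDegree) (hd1 : G.degreeOf 1 = F.degreeOf 1)
    (hne : ∃ i, ordAt (q i) F ≠ ordAt (q i) G) :
    (F.totalDegree - F.degreeOf 1) ^ 2 + ∑ i, ordAt (q i) F * ordAt (q i) G
      ≤ F.totalDegree ^ 2 := by
  have h1 := degreeOf_le_totalDegree' F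
  refine bezout q hq F.totalDegree (F.totalDegree - F.degreeOf 1) F G hF rfl (by omega) ?_ ?_ _ _
    (fun i => multGE_ordAt (q i) hF.ne_zero) (fun i => multGE_ordAt (q i) hG)
  · rw [inV_iff hG]
    omega
  · rintro ⟨R, hR⟩
    have hR0 : R ≠ 0 := by
      rintro rfl
      rw [mul_zero] at hR
      exact hG hR
    have h2 := totalDegree_mul_of_isDomain hF.ne_zero hR0
    rw [← hR, hd] at h2
    have h3 : R.totalDegree = 0 := by omega
    rw [totalDegree_eq_zero_iff_eq_C] at h3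
    have h4 : coeff 0 R ≠ 0 := by
      intro h
      rw [h, map_zero] at h3
      exact hR0 h3
    obtain ⟨i, hi⟩ := hne
    apply hi
    rw [hR, ordAt_mul (q i) hF.ne_zero hR0, h3, ordAt_C (q i) h4, add_zero]

/-! ### Near uniformity -/

/-- The equality case of Cauchy and Schwarz. -/
theorem cs_equality {ι : Type*} [Fintype ι] {γ β b c : ℝ} (hβ : 0 < β)
    (hβ2 : γ ^ 2 + Fintype.card ι ≤ β ^ 2) (w : ι → ℝ)
    (h1 : 4 * c ^ 2 + ∑ i, w i ^ 2 ≤ 4 * b ^ 2) (h2 : 2 * (b * β) ≤ 2 * (c * γ) + ∑ i, w i)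
    (hb : 0 ≤ b) (i : ι) : w i = 2 * b / β := by
  set l : ℝ := 2 * b / β with hl
  have hl0 : 0 ≤ l := by (clear * - hb hβ; positivity)
  have hlβ : l * β = 2 * b := by
    rw [hl]
    field_simp
  have h3 : ∑ i, (w i - l) ^ 2 = ∑ i, w i ^ 2 - 2 * l * ∑ i, w i + Fintype.card ι * l ^ 2 := by
    have : ∀ i, (w i - l) ^ 2 = w i ^ 2 - 2 * l * w i + l ^ 2 := fun i => by ring
    simp only [this, Finset.sum_add_distrib, Finset.sum_sub_distrib, ← Finset.mul_sum]
    simp only [Finset.sum_const, Finset.card_univ, nsmul_eq_mul]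
  have h4 : (2 * c - l * γ) ^ 2 + ∑ i, (w i - l) ^ 2 ≤ 0 := by
    rw [h3]
    have h5 : l ^ 2 * (γ ^ 2 + Fintype.card ι) ≤ l ^ 2 * β ^ 2 :=
      mul_le_mul_of_nonneg_left hβ2 (sq_nonneg l)
    have h6 : 2 * l * (2 * (b * β)) ≤ 2 * l * (2 * (c * γ) + ∑ i, w i) :=
      mul_le_mul_of_nonneg_left h2 (by (clear * - hb hβ; positivity))
    have h7 : l ^ 2 * β ^ 2 = 4 * b ^ 2 := by
      rw [← mul_pow, hlβ]
      ring
    have h8 : 2 * l * (2 * (b * β)) = 8 * b ^ 2 := by
      rw [show 2 * l * (2 * (b * β)) = 4 * b * (l * β) by ring, hlβ]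
      ring
    linarith
  have h5 : ∑ i, (w i - l) ^ 2 ≤ 0 := by nlinarith only [h4]
  have h6 : (w i - l) ^ 2 ≤ 0 :=
    (Finset.single_le_sum (fun j _ => sq_nonneg (w j - l)) (Finset.mem_univ i)).trans h5
  have h7 : w i - l = 0 := by
    have := le_antisymm h6 (sq_nonneg _)
    exact pow_eq_zero_iff (two_ne_zero) |>.mp this
  linarith only [h7]

section Pairs

variable {ι : Type*} [Fintype ι] [DecidableEq ι]

/-- Four permuted copies of a curve. -/
theorem pair_eq {γ β : ℝ} (hβ : 0 < β) (hβ2 : γ ^ 2 + Fintype.card ι ≤ β ^ 2)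
    {F : MvPolynomial (Fin 2) (GK ι)} (hF : Irreducible F)
    (hN : F.totalDegree * β ≤
      ((F.totalDegree - F.degreeOf 1 : ℕ) : ℝ) * γ + ∑ i, (ordAt (gen ι i) F : ℝ))
    {i j k l : ι} (hik : i ≠ k) (hil : i ≠ l) (hjk : j ≠ k) (hjl : j ≠ l)
    (h1 : ordAt (gen ι i) F ≠ ordAt (gen ι j) F) (h2 : ordAt (gen ι k) F ≠ ordAt (gen ι l) F)
    (p : ι) :
    (ordAt (gen ι p) F : ℝ) +
      ordAt (gen ι (Equiv.swap k l (Equiv.swap i j p))) F = 2 * F.totalDegree / β := by
  set M : ι → ℕ := fun p => ordAt (gen ι p) F with hM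
  have hM' : ∀ p, ordAt (gen ι p) F = M p := fun p => rfl
  set F1 := permP (Equiv.swap i j) F with hF1
  set F2 := permP (Equiv.swap k l) F with hF2
  set F3 := permP (Equiv.swap i j * Equiv.swap k l) F with hF3
  have o1 : ∀ p, ordAt (gen ι p) F1 = M (Equiv.swap i j p) := by
    intro p
    rw [hF1, permP_ordAt', Equiv.symm_swap]
  have o2 : ∀ p, ordAt (gen ι p) F2 = M (Equiv.swap k l p) := by
    intro p
    rw [hF2, permP_ordAt', Equiv.symm_swap]
  have o3 : ∀ p, ordAt (gen ι p) F3 = M (Equiv.swap k l (Equiv.swap i j p)) := by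
    intro p
    rw [hF3, permP_ordAt']
    rfl
  have hij : i ≠ j := by
    rintro rfl
    exact h1 rfl
  have hkl : k ≠ l := by
    rintro rfl
    exact h2 rfl
  have hq := gen_injective ι
  have b01 := bezout_same (gen ι) hq hF (permP_irreducible (Equiv.swap i j) hF).ne_zero
    (permP_totalDegree _ _) (permP_degreeOf _ _ _) ⟨i, by
      rw [← hF1, o1, Equiv.swap_apply_left]
      exact h1⟩
  have b02 := bezout_same (gen ι) hq hF (permP_irreducible (Equiv.swap k l) hF).ne_zero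
    (permP_totalDegree _ _) (permP_degreeOf _ _ _) ⟨k, by
      rw [← hF2, o2, Equiv.swap_apply_left]
      exact h2⟩
  have b31 := bezout_same (gen ι) hq (permP_irreducible (Equiv.swap i j * Equiv.swap k l) hF)
    (permP_irreducible (Equiv.swap i j) hF).ne_zero
    (by rw [permP_totalDegree, permP_totalDegree]) (by rw [permP_degreeOf, permP_degreeOf]) ⟨k, by
      rw [← hF3, ← hF1, o3, o1, Equiv.swap_apply_of_ne_of_ne hik.symm hjk.symm,
        Equiv.swap_apply_left]
      exact h2.symm⟩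
  have b32 := bezout_same (gen ι) hq (permP_irreducible (Equiv.swap i j * Equiv.swap k l) hF)
    (permP_irreducible (Equiv.swap k l) hF).ne_zero
    (by rw [permP_totalDegree, permP_totalDegree]) (by rw [permP_degreeOf, permP_degreeOf]) ⟨i, by
      rw [← hF3, ← hF2, o3, o2, Equiv.swap_apply_left, Equiv.swap_apply_of_ne_of_ne hjk hjl,
        Equiv.swap_apply_of_ne_of_ne hik hil]
      exact h1.symm⟩
  rw [← hF1] at b01
  rw [← hF2] at b02
  rw [← hF3, ← hF1, hF3, permP_totalDegree, permP_degreeOf, ← hF3] at b31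
  rw [← hF3, ← hF2, hF3, permP_totalDegree, permP_degreeOf, ← hF3] at b32
  simp only [hM', o1, o2, o3] at b01 b02 b31 b32
  set b := F.totalDegree
  set c := F.totalDegree - F.degreeOf 1
  have hw : ∀ p, M p + M (Equiv.swap k l (Equiv.swap i j p)) =
      M (Equiv.swap i j p) + M (Equiv.swap k l p) := by
    intro p
    by_cases hpi : p = i
    · rw [hpi, Equiv.swap_apply_left, Equiv.swap_apply_of_ne_of_ne hjk hjl,
        Equiv.swap_apply_of_ne_of_ne hik hil, add_comm]
    by_cases hpj : p = j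
    · rw [hpj, Equiv.swap_apply_right, Equiv.swap_apply_of_ne_of_ne hjk hjl,
        Equiv.swap_apply_of_ne_of_ne hik hil, add_comm]
    rw [Equiv.swap_apply_of_ne_of_ne hpi hpj]
  have hsum : 4 * c ^ 2 + ∑ p, (M p + M (Equiv.swap k l (Equiv.swap i j p))) ^ 2 ≤ 4 * b ^ 2 := by
    have : ∀ p, (M p + M (Equiv.swap k l (Equiv.swap i j p))) ^ 2 =
        M p * M (Equiv.swap i j p) + M p * M (Equiv.swap k l p) +
        M (Equiv.swap k l (Equiv.swap i j p)) * M (Equiv.swap i j p) +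
        M (Equiv.swap k l (Equiv.swap i j p)) * M (Equiv.swap k l p) := by
      intro p
      rw [sq]
      nth_rewrite 2 [hw p]
      ring
    simp only [this, Finset.sum_add_distrib]
    omega
  have hsum1 : ∑ p, (M (Equiv.swap k l (Equiv.swap i j p)) : ℝ) = ∑ p, (M p : ℝ) := by
    rw [Equiv.sum_comp (Equiv.swap i j) (fun p => (M (Equiv.swap k l p) : ℝ)),
      Equiv.sum_comp (Equiv.swap k l) (fun p => (M p : ℝ))]
  have := cs_equality (b := b) (c := c) hβ hβ2
    (fun p => (M p : ℝ) + M (Equiv.swap k l (Equiv.swap i j p))) (by exact_mod_cast hsum)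
    (by rw [Finset.sum_add_distrib, hsum1]; linarith only [hN]) (Nat.cast_nonneg _) p
  exact this

theorem no_disjoint_pairs (hn : 5 ≤ Fintype.card ι) {γ β : ℝ} (hβ : 0 < β)
    (hβ2 : γ ^ 2 + Fintype.card ι ≤ β ^ 2)
    {F : MvPolynomial (Fin 2) (GK ι)} (hF : Irreducible F)
    (hN : F.totalDegree * β ≤
      ((F.totalDegree - F.degreeOf 1 : ℕ) : ℝ) * γ + ∑ i, (ordAt (gen ι i) F : ℝ))
    {i j k l : ι} (hik : i ≠ k) (hil : i ≠ l) (hjk : j ≠ k) (hjl : j ≠ l)
    (h1 : ordAt (gen ι i) F ≠ ordAt (gen ι j) F) :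
    ordAt (gen ι k) F = ordAt (gen ι l) F := by
  by_contra h2
  have hij : i ≠ j := by
    rintro rfl
    exact h1 rfl
  have hkl : k ≠ l := by
    rintro rfl
    exact h2 rfl
  obtain ⟨p, hp⟩ : ∃ p, p ∉ ({i, j, k, l} : Finset ι) := by
    by_contra hcon
    push Not at hcon
    have h3 : Fintype.card ι ≤ ({i, j, k, l} : Finset ι).card := by
      rw [← Finset.card_univ]
      exact Finset.card_le_card fun x _ => hcon x
    have h4 := Finset.card_le_four (a := i) (b := j) (c := k) (d := l)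
    omega
  simp only [Finset.mem_insert, Finset.mem_singleton, not_or] at hp
  obtain ⟨hpi, hpj, hpk, hpl⟩ := hp
  have e1 := pair_eq hβ hβ2 hF hN hik hil hjk hjl h1 h2 p
  rw [Equiv.swap_apply_of_ne_of_ne hpi hpj, Equiv.swap_apply_of_ne_of_ne hpk hpl] at e1
  have e2 := pair_eq hβ hβ2 hF hN hik hil hjk hjl h1 h2 i
  rw [Equiv.swap_apply_left, Equiv.swap_apply_of_ne_of_ne hjk hjl] at e2
  have h3 : ordAt (gen ι i) F ≠ ordAt (gen ι p) F := by
    intro h4
    rw [h4] at e2
    have h5 : (ordAt (gen ι p) F : ℝ) = ordAt (gen ι j) F := by linarith only [e1, e2]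
    apply h1
    rw [h4]
    exact_mod_cast h5
  have e3 := pair_eq hβ hβ2 hF hN hik hil hpk hpl h3 h2 i
  rw [Equiv.swap_apply_left, Equiv.swap_apply_of_ne_of_ne hpk hpl] at e3
  apply h3
  have h5 : (ordAt (gen ι i) F : ℝ) = ordAt (gen ι p) F := by linarith only [e1, e3]
  exact_mod_cast h5

theorem near_uniform (hn : 6 ≤ Fintype.card ι) {γ β : ℝ} (hβ : 0 < β)
    (hβ2 : γ ^ 2 + Fintype.card ι ≤ β ^ 2)
    {F : MvPolynomial (Fin 2) (GK ι)} (hF : Irreducible F)
    (hN : F.totalDegree * β ≤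
      ((F.totalDegree - F.degreeOf 1 : ℕ) : ℝ) * γ + ∑ i, (ordAt (gen ι i) F : ℝ)) :
    ∃ (i₀ : ι) (μ : ℕ), ∀ i, i ≠ i₀ → ordAt (gen ι i) F = μ := by
  have key := fun {i j k l : ι} => no_disjoint_pairs (i := i) (j := j) (k := k) (l := l)
    (by omega : 5 ≤ Fintype.card ι) hβ hβ2 hF hN
  have hne : Nonempty ι := by
    rw [← Fintype.card_pos_iff]
    omega
  obtain ⟨i₁⟩ := hne
  by_cases hconst : ∀ i, ordAt (gen ι i) F = ordAt (gen ι i₁) F
  · exact ⟨i₁, _, fun i _ => hconst i⟩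
  push Not at hconst
  obtain ⟨i, hi⟩ := hconst
  -- two further indices
  obtain ⟨k, hk⟩ : ∃ p, p ∉ ({i, i₁} : Finset ι) := by
    by_contra hcon
    push Not at hcon
    have h3 : Fintype.card ι ≤ ({i, i₁} : Finset ι).card := by
      rw [← Finset.card_univ]
      exact Finset.card_le_card fun x _ => hcon x
    have h4 := Finset.card_le_two (a := i) (b := i₁)
    omega
  obtain ⟨l, hl⟩ : ∃ p, p ∉ ({i, i₁, k} : Finset ι) := by
    by_contra hcon
    push Not at hcon
    have h3 : Fintype.card ι ≤ ({i, i₁, k} : Finset ι).card := by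
      rw [← Finset.card_univ]
      exact Finset.card_le_card fun x _ => hcon x
    have h4 := Finset.card_le_three (a := i) (b := i₁) (c := k)
    omega
  simp only [Finset.mem_insert, Finset.mem_singleton, not_or] at hk hl
  obtain ⟨hki, hki₁⟩ := hk
  obtain ⟨hli, hli₁, hlk⟩ := hl
  have hall : ∀ p, p ≠ i → p ≠ i₁ → ordAt (gen ι p) F = ordAt (gen ι k) F := by
    intro p hpi hpi₁
    exact (key (Ne.symm hki) (Ne.symm hpi) (Ne.symm hki₁) (Ne.symm hpi₁) hi).symm
  by_cases hik : ordAt (gen ι i) F = ordAt (gen ι k) F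
  · refine ⟨i₁, ordAt (gen ι k) F, fun p hp => ?_⟩
    by_cases hpi : p = i
    · rw [hpi, hik]
    · exact hall p hpi hp
  · refine ⟨i, ordAt (gen ι k) F, fun p hp => ?_⟩
    by_cases hpi₁ : p = i₁
    · have h5 := key (Ne.symm (by
        rintro rfl
        exact hi rfl) : i ≠ i₁) (Ne.symm hli) hki₁ (Ne.symm hlk) hik
      rw [hpi₁, h5]
      exact hall l hli hli₁
    · exact hall p hp hpi₁

/-- The self-intersection estimate from the derivative trick. -/
theorem self_intersection {F : MvPolynomial (Fin 2) (GK ι)} (hF : Irreducible F) (i : ι)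
    (hi : 1 ≤ ordAt (gen ι i) F) :
    (F.totalDegree - F.degreeOf 1) ^ 2 + ∑ k, ordAt (gen ι k) F ^ 2 ≤
      F.totalDegree ^ 2 + ordAt (gen ι i) F := by
  obtain ⟨H, hHV, hHj, hHi, hHn⟩ := exists_derivative hF.ne_zero i hi
  have h1 := degreeOf_le_totalDegree' F
  have hFV : InV F.totalDegree (F.totalDegree - F.degreeOf 1) F := by
    rw [inV_iff hF.ne_zero]
    omega
  have hb := bezout (gen ι) (gen_injective ι) F.totalDegree (F.totalDegree - F.degreeOf 1) F H hF
    rfl (by omega) (hHV _ _ hFV) (by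
      rintro ⟨R, hR⟩
      apply hHn
      rw [hR, mul_comm]
      exact (multGE_ordAt (gen ι i) hF.ne_zero).mul_left R)
    (fun k => ordAt (gen ι k) F) (fun k => if k = i then ordAt (gen ι i) F - 1 else ordAt (gen ι k) F)
    (fun k => multGE_ordAt (gen ι k) hF.ne_zero) (by
      intro k
      split_ifs with h
      · rw [h]
        exact hHi
      · exact hHj k h)
  have h2 : ∑ k, ordAt (gen ι k) F * (if k = i then ordAt (gen ι i) F - 1 else ordAt (gen ι k) F)
      + ordAt (gen ι i) F = ∑ k, ordAt (gen ι k) F ^ 2 := by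
    rw [← Finset.add_sum_erase _ _ (Finset.mem_univ i),
      ← Finset.add_sum_erase _ (fun k => ordAt (gen ι k) F ^ 2) (Finset.mem_univ i)]
    have h3 : ∑ k ∈ Finset.univ.erase i,
        ordAt (gen ι k) F * (if k = i then ordAt (gen ι i) F - 1 else ordAt (gen ι k) F) =
        ∑ k ∈ Finset.univ.erase i, ordAt (gen ι k) F ^ 2 := by
      refine Finset.sum_congr rfl fun k hk => ?_
      rw [if_neg (Finset.ne_of_mem_erase hk), sq]
    rw [h3, if_pos rfl]
    obtain ⟨m, hm⟩ := Nat.exists_eq_add_of_le' hi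
    rw [hm, Nat.add_sub_cancel]
    ring
  omega

end Pairs

/-! ### The structure theorem -/

/-- The structure of the irreducible curves through very general points which violate the
inequality: a violating class yields a violating irreducible class whose multiplicities are all
equal except possibly one, with self-intersection at least minus each positive multiplicity. -/
theorem structure_thm {ι : Type*} [Fintype ι] [DecidableEq ι] (hn : 6 ≤ Fintype.card ι) (γ ω : ℝ)
    (hγ : 0 ≤ γ) (hω : 0 ≤ ω) (b c : ℕ) (m : ι → ℕ) (hb : 1 ≤ b) (hE : Eff b c m)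
    (hviol : b * √(γ ^ 2 + Fintype.card ι + ω) ≤ c * γ + ∑ i, (m i : ℝ)) :
    ∃ (b' c' : ℕ) (m' : ι → ℕ), 1 ≤ b' ∧ b' ≤ b ∧ c' ≤ b' ∧ (∀ i, m' i ≤ b') ∧ Eff b' c' m' ∧
      b' * √(γ ^ 2 + Fintype.card ι + ω) ≤ c' * γ + ∑ i, (m' i : ℝ) ∧
      (∃ (i₀ : ι) (μ : ℕ), ∀ i, i ≠ i₀ → m' i = μ) ∧
      (∀ i, 1 ≤ m' i → c' ^ 2 + ∑ k, m' k ^ 2 ≤ b' ^ 2 + m' i) := by
  classical
  set β : ℝ := √(γ ^ 2 + Fintype.card ι + ω) with hβdef
  have hcard : (6 : ℝ) ≤ Fintype.card ι := by exact_mod_cast hn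
  have hβ2 : β ^ 2 = γ ^ 2 + Fintype.card ι + ω := Real.sq_sqrt (by positivity)
  have hβ : 0 < β := Real.sqrt_pos.mpr (by positivity)
  have hγβ : γ < β := by
    rw [hβdef]
    apply Real.lt_sqrt_of_sq_lt
    linarith only [hω, hcard]
  obtain ⟨P, hP0, hPV, hPm⟩ := effGen_of_eff b c m hE
  -- the additive functional
  set N : MvPolynomial (Fin 2) (GK ι) → ℝ := fun Q =>
    Q.totalDegree * (β - γ) + Q.degreeOf 1 * γ - ∑ i, (ordAt (gen ι i) Q : ℝ) with hNdef
  have hmul : ∀ Q R, Q ≠ 0 → R ≠ 0 → N (Q * R) = N Q + N R := by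
    intro Q R hQ hR
    simp only [hNdef]
    rw [totalDegree_mul_of_isDomain hQ hR, degreeOf_mul_eq hQ hR]
    have h1 : ∀ i, (ordAt (gen ι i) (Q * R) : ℝ) = ordAt (gen ι i) Q + ordAt (gen ι i) R := by
      intro i
      rw [ordAt_mul (gen ι i) hQ hR]
      push_cast
      ring
    simp only [h1, Finset.sum_add_distrib]
    push_cast
    ring
  have hunit : ∀ u, IsUnit u → N u = 0 := by
    intro u hu
    obtain ⟨a, ha, rfl⟩ := unit_eq_C hu
    simp only [hNdef, totalDegree_C, degreeOf_C, ordAt_C _ ha]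
    simp only [CharP.cast_eq_zero, zero_mul, add_zero, Finset.sum_const_zero, sub_self]
  obtain ⟨hPd, hPd1⟩ := (inV_iff hP0).mp hPV
  have hcb : c ≤ b := by omega
  have hPord : ∀ i, m i ≤ ordAt (gen ι i) P := fun i =>
    (multGE_iff_le_ordAt (gen ι i) (m i) hP0).mp (hPm i)
  have hNP : N P ≤ 0 := by
    have h1 : (P.totalDegree : ℝ) * (β - γ) ≤ b * (β - γ) := by
      apply mul_le_mul_of_nonneg_right _ (by linarith only [hγβ])
      exact_mod_cast hPd
    have h2 : (P.degreeOf 1 : ℝ) * γ ≤ (b - c) * γ := by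
      apply mul_le_mul_of_nonneg_right _ hγ
      rw [le_sub_iff_add_le]
      exact_mod_cast hPd1
    have h3 : ∑ i, (m i : ℝ) ≤ ∑ i, (ordAt (gen ι i) P : ℝ) :=
      Finset.sum_le_sum fun i _ => by exact_mod_cast hPord i
    simp only [hNdef]
    linarith only [hviol, h1, h2, h3]
  have hPu : ¬ IsUnit P := by
    intro hu
    obtain ⟨a, ha, rfl⟩ := unit_eq_C hu
    have h1 : ∀ i, m i = 0 := by
      intro i
      have := hPord i
      rw [ordAt_C _ ha] at this
      omega
    simp only [h1, Nat.cast_zero, Finset.sum_const_zero, add_zero] at hviol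
    have h2 : (c : ℝ) * γ ≤ b * γ := mul_le_mul_of_nonneg_right (by exact_mod_cast hcb) hγ
    have h3 : (b : ℝ) * γ < b * β := mul_lt_mul_of_pos_left hγβ (by exact_mod_cast hb)
    linarith only [hviol, h2, h3]
  obtain ⟨F, hF, hFP, hNF⟩ := exists_irreducible_factor N hmul hunit hP0 hPu hNP
  obtain ⟨R, hR⟩ := hFP
  have hR0 : R ≠ 0 := by
    rintro rfl
    rw [mul_zero] at hR
    exact hP0 hR
  have hFd : F.totalDegree ≤ P.totalDegree := by
    rw [hR, totalDegree_mul_of_isDomain hF.ne_zero hR0]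
    omega
  have hF1 := degreeOf_le_totalDegree' F
  have hN : (F.totalDegree : ℝ) * β ≤
      ((F.totalDegree - F.degreeOf 1 : ℕ) : ℝ) * γ + ∑ i, (ordAt (gen ι i) F : ℝ) := by
    simp only [hNdef] at hNF
    rw [Nat.cast_sub hF1]
    linarith only [hNF]
  have hFV : InV F.totalDegree (F.totalDegree - F.degreeOf 1) F := by
    rw [inV_iff hF.ne_zero]
    omega
  refine ⟨F.totalDegree, F.totalDegree - F.degreeOf 1, fun i => ordAt (gen ι i) F,
    totalDegree_pos_of_irreducible hF, by omega, by (clear * - hF1; omega),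
    fun i => ordAt_le_totalDegree _ hF.ne_zero, ?_, hN, ?_, ?_⟩
  · exact eff_of_generic (gen ι) (algebraicIndependent_gen ι) _ _ _ F hF.ne_zero hFV
      (fun i => multGE_ordAt (gen ι i) hF.ne_zero)
  · exact near_uniform hn hβ (by rw [hβ2]; linarith only [hω]) hF hN
  · exact fun i hi => self_intersection hF i hi

end Vale.Agent.P279
end
end

section

section

namespace Vale.Agent.P279

open MvPolynomial

/-- The near uniform multiplicity vector. -/
def vec (n e m : ℕ) : Fin n → ℕ := fun i => if (i : ℕ) = 0 then e else m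

theorem Eff.reindex {ι ι' : Type*} {b c : ℕ} {m : ι → ℕ} (σ : ι' ≃ ι) (h : Eff b c m) :
    Eff b c (m ∘ σ) := by
  intro q
  obtain ⟨P, hP, hV, hm⟩ := h (q ∘ σ.symm)
  refine ⟨P, hP, hV, fun i => ?_⟩
  have := hm (σ i)
  simpa using this

theorem Eff.inl {ι₁ ι₂ : Type*} {b c : ℕ} {m₁ : ι₁ → ℕ} {m₂ : ι₂ → ℕ}
    (h : Eff b c (Sum.elim m₁ m₂)) : Eff b c m₁ := by
  intro q
  obtain ⟨P, hP, hV, hm⟩ := h (Sum.elim q (fun _ _ => 0))
  refine ⟨P, hP, hV, fun i => ?_⟩
  exact hm (Sum.inl i)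

theorem Nef.mono {n : ℕ} {γ ω ω' : ℝ} (h : Nef n γ ω) (hω : ω ≤ ω') : Nef n γ ω' := by
  intro b c m hE
  refine (h b c m hE).trans ?_
  gcongr

theorem sum_vec (n e m : ℕ) (hn : 1 ≤ n) : ∑ i, (vec n e m i : ℝ) = (n - 1) * m + e := by
  obtain ⟨k, rfl⟩ : ∃ k, n = k + 1 := ⟨n - 1, by omega⟩
  rw [Fin.sum_univ_succ]
  simp only [vec, Fin.coe_ofNat_eq_mod, Nat.zero_mod, ↓reduceIte, Fin.val_succ, Nat.add_eq_zero_iff, one_ne_zero, and_false, Finset.sum_const, Finset.card_univ, Fintype.card_fin, nsmul_eq_mul, Nat.cast_add, Nat.cast_one, add_sub_cancel_right]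
  ring

end Vale.Agent.P279
end
end

section

section

namespace Vale.Agent.P279

open MvPolynomial

/-- Cauchy-Schwarz part of the arithmetic. -/
theorem shape_arith1 {n γ ω b c S : ℝ} (hn : 0 < n)
    (hv : b ^ 2 * (γ ^ 2 + n + ω) ≤ (c * γ + S) ^ 2) :
    n * b ^ 2 * ω + (n * c - γ * S) ^ 2 ≤ (n * c ^ 2 + S ^ 2 - n * b ^ 2) * (γ ^ 2 + n) := by
  have h := mul_le_mul_of_nonneg_left hv hn.le
  linarith

theorem shape_arith2 {n γ ω b c S : ℝ} (hn : 0 < n) (hω : 0 ≤ ω)
    (h : n * b ^ 2 * ω + (n * c - γ * S) ^ 2 ≤ (n * c ^ 2 + S ^ 2 - n * b ^ 2) * (γ ^ 2 + n)) :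
    n * b ^ 2 ≤ n * c ^ 2 + S ^ 2 := by
  have hG : 0 < γ ^ 2 + n := by positivity
  have h0 : 0 ≤ n * b ^ 2 * ω := by positivity
  have h1 : 0 ≤ (n * c ^ 2 + S ^ 2 - n * b ^ 2) * (γ ^ 2 + n) := by
    linarith [sq_nonneg (n * c - γ * S)]
  have h2 := nonneg_of_mul_nonneg_left h1 hG
  linarith only [h2]

theorem shape_arith3 {n b c e m : ℝ} (hn : 10 ≤ n) (hm : 1 ≤ m)
    (h2 : n * b ^ 2 ≤ n * c ^ 2 + ((n - 1) * m + e) ^ 2)
    (hx : c ^ 2 + ((n - 1) * m ^ 2 + e ^ 2) ≤ b ^ 2 + m) :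
    (e - m) ^ 2 ≤ 2 * m ∧ n * c ^ 2 + ((n - 1) * m + e) ^ 2 - n * b ^ 2 ≤ n * m := by
  have hnpos : 0 < n := by linarith only [hn]
  have hx' := mul_le_mul_of_nonneg_left hx hnpos.le
  have h3 : (n - 1) * (e - m) ^ 2 ≤ n * m := by linarith only [h2, hx']
  constructor
  · nlinarith only [h2, hx', hn]
  · nlinarith only [hx', hn, sq_nonneg (e - m)]

theorem shape_arith4 {n e m : ℝ} (hm : 1 ≤ m) (ha : (e - m) ^ 2 ≤ 2 * m) :
    (n - 2) * m ≤ (n - 1) * m + e ∧ (n - 1) * m + e ≤ (n + 2) * m := by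
  have habs : |e - m| ≤ 2 * m := by
    apply abs_le_of_sq_le_sq _ (by positivity)
    nlinarith
  obtain ⟨ha1, ha2⟩ := abs_le.mp habs
  constructor <;> linarith only [ha1, ha2]

theorem shape_arith5 {n b c e m : ℝ} (hn : 10 ≤ n) (hm : 1 ≤ m) (ha : (e - m) ^ 2 ≤ 2 * m)
    (hD : n * c ^ 2 + ((n - 1) * m + e) ^ 2 - n * b ^ 2 ≤ n * m) :
    n * m ^ 2 / 2 ≤ b ^ 2 := by
  obtain ⟨hS1, hS2⟩ := shape_arith4 (n := n) hm ha
  have hS0 : 0 ≤ (n - 2) * m := by
    apply mul_nonneg <;> linarith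
  have hSS : ((n - 2) * m) ^ 2 ≤ ((n - 1) * m + e) ^ 2 := by (clear * - hS0 hS1; gcongr)
  have hmm : m ≤ m ^ 2 := by nlinarith only [hm]
  have hnpos : 0 < n := by linarith only [hn]
  have h6 : n * (n * m ^ 2 / 2) ≤ n * b ^ 2 := by
    have h7 : ((n - 2) * m) ^ 2 - n * m ≤ n * b ^ 2 := by
      have : 0 ≤ n * c ^ 2 := by positivity
      linarith
    have h8 : n * (n * m ^ 2 / 2) ≤ ((n - 2) * m) ^ 2 - n * m := by
      have : n * m ≤ n * m ^ 2 := by (clear * - hmm hn; gcongr)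
      have h9 : 0 ≤ (n * n / 2 - 5 * n + 4) * m ^ 2 := by
        apply mul_nonneg _ (by positivity)
        nlinarith only [hn]
      linarith
    linarith only [h7, h8]
  exact le_of_mul_le_mul_left h6 hnpos

theorem shape_arith6 {n κ γ c e m : ℝ} (hn : 10 ≤ n) (hκ0 : 0 ≤ κ)
    (hγκ : γ ^ 2 ≤ κ * n) (hm : 1 ≤ m) (ha : (e - m) ^ 2 ≤ 2 * m)
    (h10 : (n * c - γ * ((n - 1) * m + e)) ^ 2 ≤ n * m * ((κ + 1) * n)) :
    c ^ 2 ≤ 4 * (κ + 1) * n * m ^ 2 := by
  obtain ⟨hS1, hS2⟩ := shape_arith4 (n := n) hm ha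
  have hS0 : 0 ≤ (n - 2) * m := by
    apply mul_nonneg <;> linarith only [hm, hn]
  set S := (n - 1) * m + e with hS
  have hSS2 : S ^ 2 ≤ ((n + 2) * m) ^ 2 := by
    have : 0 ≤ S := le_trans hS0 hS1
    (clear * - this hS2; gcongr)
  have hmm : m ≤ m ^ 2 := by nlinarith only [hm]
  have h11 : (n * c) ^ 2 ≤ 2 * (γ * S) ^ 2 + 2 * (n * m * ((κ + 1) * n)) := by
    have h := sq_nonneg (n * c - 2 * (γ * S))
    have h' : (n * c - γ * S) ^ 2 = (n * c) ^ 2 - 2 * (n * c) * (γ * S) + (γ * S) ^ 2 := by ring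
    have h'' : (n * c - 2 * (γ * S)) ^ 2
        = (n * c) ^ 2 - 4 * (n * c) * (γ * S) + 4 * (γ * S) ^ 2 := by ring
    linarith only [h10, h]
  have h12 : (γ * S) ^ 2 ≤ κ * n * ((n + 2) * m) ^ 2 := by
    rw [mul_pow]
    apply mul_le_mul hγκ hSS2 (by (clear * -; positivity)) (by positivity)
  have h13 : n ^ 2 * c ^ 2 ≤ n ^ 2 * (4 * (κ + 1) * n * m ^ 2) := by
    have h14 : 2 * (n * m * ((κ + 1) * n)) ≤ 2 * (n * m ^ 2 * ((κ + 1) * n)) := by gcongr
    have h15 : n ^ 2 * (4 * (κ + 1) * n * m ^ 2)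
        - (2 * (κ * n * ((n + 2) * m) ^ 2) + 2 * (n * m ^ 2 * ((κ + 1) * n)))
        = n * m ^ 2 * (κ * (4 * n ^ 2 - 2 * (n + 2) ^ 2 - 2 * n) + (4 * n ^ 2 - 2 * n)) := by
      ring
    have h16 : 0 ≤ 4 * n ^ 2 - 2 * (n + 2) ^ 2 - 2 * n := by nlinarith only [hn]
    have h17 : 0 ≤ 4 * n ^ 2 - 2 * n := by nlinarith only [h16]
    have h18 : 0 ≤ n * m ^ 2 * (κ * (4 * n ^ 2 - 2 * (n + 2) ^ 2 - 2 * n) + (4 * n ^ 2 - 2 * n)) := by
      (clear * - hn hm hκ0 h16 h17; positivity)
    have h19 : (n * c) ^ 2 = n ^ 2 * c ^ 2 := by ring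
    linarith only [h11, h12, h14, h18]
  exact le_of_mul_le_mul_left h13 (by positivity)

/-- Pure arithmetic consequences of a violation together with the derivative trick. -/
theorem shape_arith {n κ γ ω b c e m : ℝ} (hn : 10 ≤ n) (hκ0 : 0 ≤ κ)
    (hγκ : γ ^ 2 ≤ κ * n) (hω : 0 ≤ ω) (hm : 1 ≤ m)
    (hv : b ^ 2 * (γ ^ 2 + n + ω) ≤ (c * γ + ((n - 1) * m + e)) ^ 2)
    (hx : c ^ 2 + ((n - 1) * m ^ 2 + e ^ 2) ≤ b ^ 2 + m) :
    (e - m) ^ 2 ≤ 2 * m ∧ c ^ 2 ≤ 4 * (κ + 1) * n * m ^ 2 ∧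
      n * b ^ 2 ≤ n * c ^ 2 + ((n - 1) * m + e) ^ 2 ∧ ω * m ≤ 2 * (κ + 1) := by
  have hnpos : 0 < n := by linarith only [hn]
  have h1 := shape_arith1 hnpos hv
  have h2 := shape_arith2 hnpos hω h1
  obtain ⟨ha, hD⟩ := shape_arith3 hn hm h2 hx
  have hb2 := shape_arith5 hn hm ha hD
  have h5 : n * b ^ 2 * ω + (n * c - γ * ((n - 1) * m + e)) ^ 2 ≤ n * m * ((κ + 1) * n) := by
    refine h1.trans ?_
    apply mul_le_mul hD (by linarith only [hγκ]) (by (clear * - hn; positivity)) (by positivity)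
  refine ⟨ha, ?_, h2, ?_⟩
  · apply shape_arith6 hn hκ0 hγκ hm ha
    have : 0 ≤ n * b ^ 2 * ω := by (clear * - hn hω; positivity)
    linarith only [h5, this]
  · have h20 : n * b ^ 2 * ω ≤ n * m * ((κ + 1) * n) := by
      linarith only [h5, sq_nonneg (n * c - γ * ((n - 1) * m + e))]
    have h21 : n * (n * m ^ 2 / 2) * ω ≤ n * b ^ 2 * ω := by (clear * - hb2 hn hω; gcongr)
    have h22 : (n * n * m / 2) * (ω * m) ≤ (n * n * m / 2) * (2 * (κ + 1)) := by
      calc (n * n * m / 2) * (ω * m) = n * (n * m ^ 2 / 2) * ω := by ring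
        _ ≤ n * m * ((κ + 1) * n) := h21.trans h20
        _ = _ := by ring
    exact le_of_mul_le_mul_left h22 (by positivity)

theorem eff_reindex_vec {n : ℕ} (hn : 1 ≤ n) {b c : ℕ} {m : Fin n → ℕ} (hE : Eff b c m)
    (i₀ : Fin n) (μ : ℕ) (h : ∀ i, i ≠ i₀ → m i = μ) : Eff b c (vec n (m i₀) μ) := by
  have h1 := Eff.reindex (Equiv.swap i₀ ⟨0, hn⟩) hE
  convert h1 using 1
  funext i
  simp only [vec, Function.comp]
  split_ifs with hi
  · have : i = ⟨0, hn⟩ := Fin.ext hi
    subst this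
    simp
  · symm
    apply h
    intro h2
    apply hi
    have h3 : Equiv.swap i₀ ⟨0, hn⟩ (Equiv.swap i₀ ⟨0, hn⟩ i) = Equiv.swap i₀ ⟨0, hn⟩ i₀ := by
      rw [h2]
    simp at h3
    rw [h3]

theorem sum_near {n : ℕ} (hn : 1 ≤ n) {m : Fin n → ℕ} (i₀ : Fin n) (μ : ℕ)
    (h : ∀ i, i ≠ i₀ → m i = μ) (f : ℝ → ℝ) :
    ∑ i, f (m i : ℝ) = ((n : ℝ) - 1) * f μ + f (m i₀) := by
  classical
  rw [← Finset.add_sum_erase _ _ (Finset.mem_univ i₀)]
  have : ∑ i ∈ Finset.univ.erase i₀, f (m i : ℝ) = ∑ i ∈ Finset.univ.erase i₀, f (μ : ℝ) := by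
    apply Finset.sum_congr rfl
    intro i hi
    rw [h i (Finset.ne_of_mem_erase hi)]
  rw [this, Finset.sum_const, Finset.card_erase_of_mem (Finset.mem_univ i₀), Finset.card_univ,
    Fintype.card_fin, nsmul_eq_mul, Nat.cast_sub hn]
  push_cast
  ring

theorem shape {n : ℕ} (hn : 10 ≤ n) {κ γ ω : ℝ} (hκ0 : 0 ≤ κ) (hκn : 4 * κ + 2 ≤ n)
    (hγ : 0 ≤ γ) (hγκ : γ ^ 2 ≤ κ * n) (hω : 0 ≤ ω) {b c : ℕ} {m : Fin n → ℕ} (hb : 1 ≤ b)
    (hE : Eff b c m) (hviol : b * √(γ ^ 2 + n + ω) ≤ c * γ + ∑ i, (m i : ℝ)) :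
    ∃ b' c' e μ : ℕ, 1 ≤ b' ∧ b' ≤ b ∧ μ ≤ b' ∧ 1 ≤ μ ∧ Eff b' c' (vec n e μ) ∧
      ((e : ℝ) - μ) ^ 2 ≤ 2 * μ ∧ (c' : ℝ) ^ 2 ≤ 4 * (κ + 1) * n * (μ : ℝ) ^ 2 ∧
      (n : ℝ) * (b' : ℝ) ^ 2 ≤ n * (c' : ℝ) ^ 2 + (((n : ℝ) - 1) * μ + e) ^ 2 ∧
      ω * μ ≤ 2 * (κ + 1) := by
  have hnR : (10 : ℝ) ≤ n := by exact_mod_cast hn
  have hviol' : b * √(γ ^ 2 + Fintype.card (Fin n) + ω) ≤ c * γ + ∑ i, (m i : ℝ) := by
    simpa only [Fintype.card_fin] using hviol
  obtain ⟨b', c', m', hb1, hb2, hcb, hmb, hE', hv', ⟨i₀, μ, hi₀⟩, hx⟩ :=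
    structure_thm (by simpa only [Fintype.card_fin] using (by omega : 6 ≤ n)) γ ω hγ hω b c m hb hE hviol'
  rw [Fintype.card_fin] at hv'
  have hsum : ∑ i, (m' i : ℝ) = ((n : ℝ) - 1) * μ + m' i₀ :=
    sum_near (by omega) i₀ μ hi₀ (fun x => x)
  have hsum2 : ∑ i, (m' i : ℝ) ^ 2 = ((n : ℝ) - 1) * (μ : ℝ) ^ 2 + (m' i₀ : ℝ) ^ 2 :=
    sum_near (by omega) i₀ μ hi₀ (fun x => x ^ 2)
  rw [hsum] at hv'
  have hb1R : (1 : ℝ) ≤ b' := by exact_mod_cast hb1
  have hv2 : (b' : ℝ) ^ 2 * (γ ^ 2 + n + ω) ≤ (c' * γ + (((n : ℝ) - 1) * μ + m' i₀)) ^ 2 := by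
    have h0 : 0 ≤ (b' : ℝ) * √(γ ^ 2 + n + ω) := by (clear * - hb1 hn hω; positivity)
    have h1 := mul_self_le_mul_self h0 hv'
    have h2 : (b' : ℝ) * √(γ ^ 2 + n + ω) * (b' * √(γ ^ 2 + n + ω))
        = (b' : ℝ) ^ 2 * (γ ^ 2 + n + ω) := by
      have := Real.mul_self_sqrt (show 0 ≤ γ ^ 2 + n + ω by (clear * - hn hω; positivity))
      linear_combination (b' : ℝ) ^ 2 * this
    rw [h2] at h1
    rw [sq (c' * γ + _)]
    exact h1
  -- some index different from i₀
  obtain ⟨i₁, hi₁⟩ : ∃ i₁ : Fin n, i₁ ≠ i₀ := by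
    by_cases h : i₀ = ⟨0, by omega⟩
    · exact ⟨⟨1, by omega⟩, by rw [h]; intro h'; simp at h'⟩
    · exact ⟨⟨0, by omega⟩, fun h' => h h'.symm⟩
  have hμb : μ ≤ b' := by rw [← hi₀ i₁ hi₁]; exact hmb i₁
  have hμ1 : 1 ≤ μ := by
    by_contra hμ0
    have hμ0' : μ = 0 := by omega
    subst hμ0'
    have h3 : (m' i₀ : ℝ) ≤ b' := by exact_mod_cast hmb i₀
    have h4 : (c' : ℝ) ≤ b' := by exact_mod_cast hcb
    have h5 : (b' : ℝ) ^ 2 * (γ ^ 2 + n + ω) ≤ (b' * (γ + 1)) ^ 2 := by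
      refine hv2.trans ?_
      have h6 : 0 ≤ (c' : ℝ) * γ + (((n : ℝ) - 1) * (0 : ℕ) + m' i₀) := by
        have : 0 ≤ (c' : ℝ) * γ := by (clear * - hγ; positivity)
        have : (0 : ℝ) ≤ m' i₀ := by (clear * -; positivity)
        push_cast
        (clear hn κ ω hκ0 hκn hγκ hω b c m hb hE hviol hnR hviol' b' hb1 hb2 hcb hmb hE' hx hb1R i₁ hi₁ hv' hi₀ hsum hsum2 hv2 hμb hμ0 h3 h4 this; linarith)
      have h7 : (c' : ℝ) * γ + (((n : ℝ) - 1) * (0 : ℕ) + m' i₀) ≤ b' * (γ + 1) := by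
        have : (c' : ℝ) * γ ≤ b' * γ := by (clear * - h4 hγ; gcongr)
        push_cast
        linarith only [h3, this]
      (clear * - h6 h7; gcongr)
    have h8 : (b' : ℝ) ^ 2 * (γ ^ 2 + n + ω) ≤ (b' : ℝ) ^ 2 * (γ + 1) ^ 2 := by
      rw [← mul_pow]; exact h5
    have h9 : γ ^ 2 + n + ω ≤ (γ + 1) ^ 2 := le_of_mul_le_mul_left h8 (by positivity)
    have h10 : (n : ℝ) - 1 ≤ 2 * γ := by nlinarith only [hω, h9]
    have h11 : ((n : ℝ) - 1) ^ 2 ≤ (2 * γ) ^ 2 := by
      have : (0 : ℝ) ≤ n - 1 := by linarith only [hnR]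
      (clear * - this h10; gcongr)
    nlinarith only [hγκ, h11, hκn]
  have hμ1R : (1 : ℝ) ≤ μ := by exact_mod_cast hμ1
  have hxu : (c' : ℝ) ^ 2 + (((n : ℝ) - 1) * (μ : ℝ) ^ 2 + (m' i₀ : ℝ) ^ 2)
      ≤ (b' : ℝ) ^ 2 + μ := by
    have h := hx i₁ (by rw [hi₀ i₁ hi₁]; exact hμ1)
    rw [hi₀ i₁ hi₁] at h
    rw [← hsum2]
    exact_mod_cast h
  obtain ⟨ha, hc, hbb, hωm⟩ := shape_arith hnR hκ0 hγκ hω hμ1R hv2 hxu
  exact ⟨b', c', m' i₀, μ, hb1, hb2, hμb, hμ1, eff_reindex_vec (by omega) hE' i₀ μ hi₀, ha, hc,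
    hbb, hωm⟩

end Vale.Agent.P279
end
end

section

section

namespace Vale.Agent.P279

open MvPolynomial

namespace Gl

/-- Scaling of the second variable. -/
noncomputable def scal (t : ℚ) : MvPolynomial (Fin 2) ℚ →ₐ[ℚ] MvPolynomial (Fin 2) ℚ :=
  aeval (fun j => if j = 0 then X 0 else C t * X 1)

theorem scal_X0 (t : ℚ) : scal t (X 0) = X 0 := by
  rw [scal, aeval_X, if_pos rfl]

theorem scal_X1 (t : ℚ) : scal t (X 1) = C t * X 1 := by
  rw [scal, aeval_X, if_neg (by decide)]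

theorem scal_C (t a : ℚ) : scal t (C a) = C a := (scal t).commutes a

theorem coeff_scal (t : ℚ) (P : MvPolynomial (Fin 2) ℚ) (δ : Fin 2 →₀ ℕ) :
    coeff δ (scal t P) = t ^ (δ 1) * coeff δ P := by
  induction P using MvPolynomial.induction_on' with
  | monomial u a =>
    have h1 : scal t (monomial u a) = monomial u (t ^ (u 1) * a) := by
      rw [monomial_eq, monomial_eq, map_mul, scal_C, Finsupp.prod_fintype _ _ (by simp),
        Fin.prod_univ_two, map_mul, map_pow, map_pow, scal_X0, scal_X1, mul_pow, C_mul, C_pow]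
      ring
    rw [h1, coeff_monomial, coeff_monomial]
    split_ifs with h
    · rw [h]
    · rw [mul_zero]
  | add p q hp hq => rw [map_add, coeff_add, coeff_add, hp, hq]; ring

theorem shift_scal (t : ℚ) (q q' : Fin 2 → ℚ) (h0 : q' 0 = q 0) (h1 : q' 1 = t * q 1)
    (P : MvPolynomial (Fin 2) ℚ) : shift q (scal t P) = scal t (shift q' P) := by
  have : (shift q).comp (scal t) = (scal t).comp (shift q') := by
    apply algHom_ext
    intro i
    fin_cases i
    · simp only [AlgHom.comp_apply, Fin.zero_eta]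
      rw [scal_X0, shift_X, shift_X, map_add, scal_X0, scal_C, h0]
    · simp only [AlgHom.comp_apply, Fin.mk_one]
      rw [scal_X1, shift_X, map_mul, shift_X, shift_C, map_add, scal_X1, scal_C, h1, C_mul]
      ring
  exact DFunLike.congr_fun this P

theorem multGE_scal {t : ℚ} {q q' : Fin 2 → ℚ} (h0 : q' 0 = q 0) (h1 : q' 1 = t * q 1)
    {m : ℕ} {P : MvPolynomial (Fin 2) ℚ} (h : MultGE q' m P) : MultGE q m (scal t P) := by
  intro α hα
  rw [shift_scal t q q' h0 h1, coeff_scal, h α hα, mul_zero]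

/-- A box of exponents. -/
noncomputable def box (b : ℕ) : Finset (Fin 2 →₀ ℕ) := Finset.Iic (Finsupp.single 0 b + Finsupp.single 1 b)

theorem mem_box {b : ℕ} {δ : Fin 2 →₀ ℕ} (h : δ 0 + δ 1 ≤ b) : δ ∈ box b := by
  rw [box, Finset.mem_Iic]
  intro i
  fin_cases i
  · simp only [Fin.zero_eta, Fin.isValue, Finsupp.coe_add, Pi.add_apply, Finsupp.single_eq_same, ne_eq, zero_ne_one, not_false_eq_true, Finsupp.single_eq_of_ne, add_zero]; omega
  · simp only [Fin.mk_one, Fin.isValue, Finsupp.coe_add, Pi.add_apply, ne_eq, one_ne_zero, not_false_eq_true, Finsupp.single_eq_of_ne, Finsupp.single_eq_same, zero_add]; omega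

/-- The sum of the absolute values of the coefficients in a box. -/
noncomputable def nrm (b : ℕ) (P : MvPolynomial (Fin 2) ℚ) : ℚ := ∑ δ ∈ box b, |coeff δ P|

theorem nrm_nonneg (b : ℕ) (P : MvPolynomial (Fin 2) ℚ) : 0 ≤ nrm b P :=
  Finset.sum_nonneg fun _ _ => abs_nonneg _

theorem le_nrm {b : ℕ} {P : MvPolynomial (Fin 2) ℚ} {δ : Fin 2 →₀ ℕ} (h : δ ∈ box b) :
    |coeff δ P| ≤ nrm b P :=
  Finset.single_le_sum (f := fun δ => |coeff δ P|) (fun _ _ => abs_nonneg _) h

theorem nrm_neg (b : ℕ) (P : MvPolynomial (Fin 2) ℚ) : nrm b (-P) = nrm b P := by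
  simp only [nrm, coeff_neg, abs_neg]

theorem nrm_sum_le {ι : Type*} (b : ℕ) (s : Finset ι) (P : ι → MvPolynomial (Fin 2) ℚ) :
    nrm b (∑ i ∈ s, P i) ≤ ∑ i ∈ s, nrm b (P i) := by
  unfold nrm
  rw [Finset.sum_comm]
  apply Finset.sum_le_sum
  intro δ _
  rw [coeff_sum]
  exact Finset.abs_sum_le_sum_abs _ _

theorem nrm_smul (b : ℕ) (a : ℚ) (P : MvPolynomial (Fin 2) ℚ) :
    nrm b (a • P) = |a| * nrm b P := by
  unfold nrm
  rw [Finset.mul_sum]
  apply Finset.sum_congr rfl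
  intro δ _
  rw [coeff_smul, smul_eq_mul, abs_mul]

theorem eq_sum_box {b : ℕ} {P : MvPolynomial (Fin 2) ℚ} (h : P.support ⊆ box b) :
    P = ∑ δ ∈ box b, coeff δ P • monomial δ (1 : ℚ) := by
  ext ε
  rw [coeff_sum]
  simp only [coeff_smul, coeff_monomial, smul_eq_mul, mul_ite, mul_one, mul_zero]
  rw [Finset.sum_ite_eq']
  split_ifs with hε
  · rfl
  · by_contra h0
    exact hε (h (mem_support_iff.mpr h0))

theorem exists_bound (T : MvPolynomial (Fin 2) ℚ →ₗ[ℚ] MvPolynomial (Fin 2) ℚ) (b : ℕ) :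
    ∃ K : ℚ, 0 ≤ K ∧ ∀ P : MvPolynomial (Fin 2) ℚ, P.support ⊆ box b → nrm b (T P) ≤ K * nrm b P := by
  refine ⟨∑ δ ∈ box b, nrm b (T (monomial δ 1)), Finset.sum_nonneg fun _ _ => nrm_nonneg _ _, ?_⟩
  intro P hP
  have h1 : T P = ∑ δ ∈ box b, coeff δ P • T (monomial δ (1 : ℚ)) := by
    conv_lhs => rw [eq_sum_box hP]
    rw [map_sum]
    apply Finset.sum_congr rfl
    intro δ _
    rw [map_smul]
  rw [h1, Finset.sum_mul]
  refine (nrm_sum_le _ _ _).trans ?_
  apply Finset.sum_le_sum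
  intro δ hδ
  rw [nrm_smul, mul_comm]
  exact mul_le_mul_of_nonneg_left (le_nrm hδ) (nrm_nonneg _ _)

theorem exists_retract {E : Type*} [AddCommGroup E] [Module ℚ E] (V W : Submodule ℚ E)
    (h : ∀ v ∈ V, v ∈ W → v = 0) :
    ∃ T : E →ₗ[ℚ] E, (∀ v ∈ V, T v = v) ∧ ∀ w ∈ W, T w = 0 := by
  let f : V →ₗ[ℚ] (E ⧸ W) := W.mkQ.comp V.subtype
  have hf : LinearMap.ker f = ⊥ := by
    rw [LinearMap.ker_eq_bot']
    intro v hv
    have : (v : E) ∈ W := by
      simpa [f, Submodule.Quotient.mk_eq_zero] using hv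
    exact Subtype.ext (h v v.2 this)
  obtain ⟨g, hg⟩ := LinearMap.exists_leftInverse_of_injective f hf
  refine ⟨V.subtype.comp (g.comp W.mkQ), ?_, ?_⟩
  · intro v hv
    have := DFunLike.congr_fun hg ⟨v, hv⟩
    simp only [LinearMap.comp_apply, LinearMap.id_apply, f, Submodule.subtype_apply] at this
    simp only [LinearMap.comp_apply, Submodule.subtype_apply]
    rw [this]
  · intro w hw
    have : W.mkQ w = 0 := by simpa [Submodule.Quotient.mk_eq_zero] using hw
    simp only [LinearMap.comp_apply]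
    rw [this, map_zero, map_zero]

theorem ordAt_X1_pow {q : Fin 2 → ℚ} (hq : q 1 ≠ 0) (k : ℕ) :
    ordAt q (X 1 ^ k : MvPolynomial (Fin 2) ℚ) = 0 := by
  have h0 : (X 1 ^ k : MvPolynomial (Fin 2) ℚ) ≠ 0 := pow_ne_zero _ (X_ne_zero _)
  by_contra h
  have h1 : MultGE q 1 (X 1 ^ k : MvPolynomial (Fin 2) ℚ) :=
    (multGE_iff_le_ordAt q 1 h0).mpr (by omega)
  have h2 := h1 0 (by simp only [Fin.isValue, Finsupp.coe_zero, Pi.zero_apply, add_zero, Order.lt_one_iff])
  rw [map_pow, shift_X, ← constantCoeff_eq, map_pow, map_add, constantCoeff_X, constantCoeff_C,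
    zero_add] at h2
  exact pow_ne_zero k hq h2

theorem exists_factor {b c l : ℕ} (hl : l < b) {P : MvPolynomial (Fin 2) ℚ}
    (hP : ∀ δ ∈ P.support, δ 0 + δ 1 ≤ b ∧ δ 1 + c ≤ b ∧ b ≤ δ 1 + l) :
    ∃ R : MvPolynomial (Fin 2) ℚ, P = X 1 ^ (b - l) * R ∧ InV l c R := by
  classical
  refine ⟨P.divMonomial (Finsupp.single 1 (b - l)), ?_, ?_⟩
  · ext δ
    rw [X_pow_eq_monomial, mul_comm, coeff_mul_monomial', mul_one]
    split_ifs with h
    · rw [coeff_divMonomial, add_tsub_cancel_of_le h]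
    · by_contra h0
      apply h
      intro i
      have := (hP δ (mem_support_iff.mpr h0)).2.2
      fin_cases i
      · simp only [Fin.isValue, Finsupp.single_tsub, Fin.zero_eta, Finsupp.coe_tsub, Pi.sub_apply, ne_eq, zero_ne_one, not_false_eq_true, Finsupp.single_eq_of_ne, tsub_self, zero_le]
      · simp only [Fin.isValue, Finsupp.single_tsub, Fin.mk_one, Finsupp.coe_tsub, Pi.sub_apply, Finsupp.single_eq_same, tsub_le_iff_right, ge_iff_le]; omega
  · intro δ hδ
    rw [mem_support_iff, coeff_divMonomial] at hδ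
    have h1 := hP _ (mem_support_iff.mpr hδ)
    simp only [Finsupp.add_apply, Finsupp.single_apply] at h1
    simp only [Fin.isValue, one_ne_zero, ↓reduceIte, zero_add] at h1
    omega

/-- The part of a polynomial with low degree in the second variable. -/
noncomputable def low (k : ℕ) (P : MvPolynomial (Fin 2) ℚ) : MvPolynomial (Fin 2) ℚ :=
  ∑ δ ∈ P.support.filter (fun δ => δ 1 < k), monomial δ (coeff δ P)

theorem coeff_low (k : ℕ) (P : MvPolynomial (Fin 2) ℚ) (ε : Fin 2 →₀ ℕ) :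
    coeff ε (low k P) = if ε 1 < k then coeff ε P else 0 := by
  rw [low, coeff_sum]
  simp only [coeff_monomial]
  rw [Finset.sum_ite_eq']
  simp only [Finset.mem_filter, mem_support_iff]
  by_cases h1 : ε 1 < k
  · by_cases h2 : coeff ε P = 0
    · simp only [h2, ne_eq, not_true_eq_false, Fin.isValue, false_and, ↓reduceIte, ite_self]
    · simp only [ne_eq, h2, not_false_eq_true, Fin.isValue, h1, and_self, ↓reduceIte]
  · simp only [ne_eq, Fin.isValue, h1, and_false, ↓reduceIte]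

end Gl

open Gl

theorem glue {ι₁ ι₂ : Type*} [Fintype ι₁] [Fintype ι₂] (b c l : ℕ) (m₁ : ι₁ → ℕ) (m₂ : ι₂ → ℕ)
    (hl : l < b) (h : Eff b c (Sum.elim m₁ m₂)) : Eff l c m₁ ∨ Eff b (l + 1) m₂ := by
  classical
  by_contra hcon
  push Not at hcon
  obtain ⟨h1, h2⟩ := hcon
  unfold Eff at h1 h2
  push Not at h1 h2
  obtain ⟨q₁, h1⟩ := h1
  obtain ⟨q₂, h2⟩ := h2
  -- move the first configuration away from the line y = 0
  obtain ⟨a, ha⟩ : ∃ a : ℚ, a ∉ Finset.univ.image (fun i => - q₁ i 1) :=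
    Infinite.exists_notMem_finset _
  have ha' : ∀ i, q₁ i 1 + a ≠ 0 := by
    intro i hi
    apply ha
    rw [Finset.mem_image]
    exact ⟨i, Finset.mem_univ _, by linarith only [hi]⟩
  set w : Fin 2 → ℚ := fun j => if j = 0 then 0 else a with hw
  set p₁ : ι₁ → Fin 2 → ℚ := fun i => q₁ i + w with hp₁
  have hp₁1 : ∀ i, p₁ i 1 ≠ 0 := by
    intro i
    have : p₁ i 1 = q₁ i 1 + a := by simp [hp₁, hw]
    rw [this]
    exact ha' i
  have h1' : ∀ P : MvPolynomial (Fin 2) ℚ, P ≠ 0 → InV l c P → ∃ i, ¬ MultGE (p₁ i) (m₁ i) P := by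
    intro P hP hV
    obtain ⟨i, hi⟩ := h1 (shift w P) (shift_ne_zero w hP) (hV.shift w)
    refine ⟨i, fun hm => hi ?_⟩
    intro α hα
    rw [shift_shift]
    exact hm α hα
  -- submodules
  let W₁ : Submodule ℚ (MvPolynomial (Fin 2) ℚ) :=
    { carrier := {P | ∀ i, MultGE (p₁ i) (m₁ i) P}
      add_mem' := fun hP hQ i => (hP i).add (hQ i)
      zero_mem' := fun _ => MultGE.zero
      smul_mem' := fun r _ hP i => (hP i).smul r }
  let W₂ : Submodule ℚ (MvPolynomial (Fin 2) ℚ) :=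
    { carrier := {P | ∀ i, MultGE (q₂ i) (m₂ i) P}
      add_mem' := fun hP hQ i => (hP i).add (hQ i)
      zero_mem' := fun _ => MultGE.zero
      smul_mem' := fun r _ hP i => (hP i).smul r }
  let VH : Submodule ℚ (MvPolynomial (Fin 2) ℚ) :=
    { carrier := {P | ∀ δ ∈ P.support, δ 0 + δ 1 ≤ b ∧ δ 1 + c ≤ b ∧ b ≤ δ 1 + l}
      add_mem' := fun {P Q} hP hQ δ hδ => by
        rcases Finset.mem_union.mp (support_add hδ) with h | h
        · exact hP δ h
        · exact hQ δ h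
      zero_mem' := fun δ hδ => by simp at hδ
      smul_mem' := fun r P hP δ hδ => hP δ (support_smul hδ) }
  let VL : Submodule ℚ (MvPolynomial (Fin 2) ℚ) :=
    { carrier := {P | InV b (l + 1) P}
      add_mem' := fun hP hQ => hP.add hQ
      zero_mem' := InV.zero
      smul_mem' := fun r _ hP => hP.smul r }
  obtain ⟨T₁, hT₁, hT₁'⟩ := exists_retract VH W₁ (by
    intro P hP hPW
    by_contra h0
    obtain ⟨R, hR, hRV⟩ := exists_factor hl hP
    have hR0 : R ≠ 0 := by rintro rfl; rw [mul_zero] at hR; exact h0 hR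
    obtain ⟨i, hi⟩ := h1' R hR0 hRV
    apply hi
    rw [multGE_iff_le_ordAt _ _ hR0]
    have h3 := (multGE_iff_le_ordAt _ _ h0).mp (hPW i)
    rw [hR, ordAt_mul _ (pow_ne_zero _ (X_ne_zero _)) hR0, ordAt_X1_pow (hp₁1 i), zero_add] at h3
    exact h3)
  obtain ⟨T₂, hT₂, hT₂'⟩ := exists_retract VL W₂ (by
    intro P hP hPW
    by_contra h0
    obtain ⟨i, hi⟩ := h2 P h0 hP
    exact hi (hPW i))
  obtain ⟨K₁, hK₁, hb₁⟩ := exists_bound T₁ b
  obtain ⟨K₂, hK₂, hb₂⟩ := exists_bound T₂ b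
  set t : ℚ := K₁ * K₂ + 1 with ht
  have hKK : 0 ≤ K₁ * K₂ := mul_nonneg hK₁ hK₂
  have ht1 : 1 ≤ t := by linarith only [hKK]
  have ht0 : 0 < t := by linarith only [hKK]
  -- the degenerate configuration
  obtain ⟨P, hP0, hPV, hPm⟩ :=
    h (Sum.elim (fun i j => if j = 0 then p₁ i 0 else t * p₁ i 1) q₂)
  have hPm1 : ∀ i, MultGE (fun j => if j = 0 then p₁ i 0 else t * p₁ i 1) (m₁ i) P :=
    fun i => hPm (Sum.inl i)
  have hPm2 : ∀ i, MultGE (q₂ i) (m₂ i) P := fun i => hPm (Sum.inr i)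
  set L := low (b - l) P with hL
  set H := P - L with hH
  have cL : ∀ ε, coeff ε L = if ε 1 < b - l then coeff ε P else 0 := coeff_low _ _
  have cH : ∀ ε, coeff ε H = if ε 1 < b - l then 0 else coeff ε P := by
    intro ε
    rw [hH, coeff_sub, cL]
    split_ifs <;> ring
  have hLV : L ∈ VL := by
    intro δ hδ
    rw [mem_support_iff, cL] at hδ
    split_ifs at hδ with h3
    · have := hPV δ (mem_support_iff.mpr hδ)
      omega
    · exact absurd rfl hδ
  have hHV : ∀ s : ℚ, scal s H ∈ VH := by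
    intro s δ hδ
    rw [mem_support_iff, coeff_scal, cH] at hδ
    split_ifs at hδ with h3
    · exact absurd (mul_zero _) hδ
    · have := hPV δ (mem_support_iff.mpr (right_ne_zero_of_mul hδ))
      omega
  have hbox : ∀ Q : MvPolynomial (Fin 2) ℚ, (∀ ε, coeff ε P = 0 → coeff ε Q = 0) → Q.support ⊆ box b := by
    intro Q hQ δ hδ
    apply mem_box
    rw [mem_support_iff] at hδ
    exact (hPV δ (mem_support_iff.mpr (fun h => hδ (hQ δ h)))).1
  -- block one
  have e1 : scal t H = - T₁ (scal t L) := by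
    have h3 : T₁ (scal t P) = 0 := by
      apply hT₁'
      intro i
      exact multGE_scal (q' := fun j => if j = 0 then p₁ i 0 else t * p₁ i 1) rfl rfl (hPm1 i)
    have h4 : P = L + H := by rw [hH]; ring
    rw [h4, map_add, map_add, hT₁ _ (hHV t)] at h3
    exact (neg_eq_of_add_eq_zero_right h3).symm
  have e2 : L = - T₂ H := by
    have h3 : T₂ P = 0 := hT₂' _ hPm2
    have h4 : P = L + H := by rw [hH]; ring
    rw [h4, map_add, hT₂ _ hLV] at h3
    exact (neg_eq_of_add_eq_zero_left h3).symm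
  have n1 : nrm b (scal t H) ≤ K₁ * nrm b (scal t L) := by
    rw [e1, nrm_neg]
    apply hb₁
    apply hbox
    intro ε hε
    rw [coeff_scal, cL, hε]
    simp only [Fin.isValue, ite_self, mul_zero]
  have n2 : nrm b L ≤ K₂ * nrm b H := by
    conv_lhs => rw [e2]
    rw [nrm_neg]
    apply hb₂
    apply hbox
    intro ε hε
    rw [cH, hε]
    simp only [Fin.isValue, ite_self]
  have n3 : nrm b (scal t L) ≤ t ^ (b - l - 1) * nrm b L := by
    unfold nrm
    rw [Finset.mul_sum]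
    apply Finset.sum_le_sum
    intro δ _
    rw [coeff_scal, abs_mul, abs_of_nonneg (show 0 ≤ t ^ (δ 1) by (clear * - hK₁ hK₂; positivity)), cL]
    split_ifs with h3
    · apply mul_le_mul_of_nonneg_right _ (abs_nonneg _)
      exact pow_le_pow_right₀ ht1 (by omega)
    · simp only [Fin.isValue, abs_zero, mul_zero, Std.le_refl]
  have n4 : t ^ (b - l) * nrm b H ≤ nrm b (scal t H) := by
    unfold nrm
    rw [Finset.mul_sum]
    apply Finset.sum_le_sum
    intro δ _
    rw [coeff_scal, abs_mul, abs_of_nonneg (show 0 ≤ t ^ (δ 1) by (clear * - hK₁ hK₂; positivity)), cH]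
    split_ifs with h3
    · simp only [abs_zero, mul_zero, Fin.isValue, Std.le_refl]
    · apply mul_le_mul_of_nonneg_right _ (abs_nonneg _)
      exact pow_le_pow_right₀ ht1 (by omega)
  have n5 : t * nrm b H ≤ K₁ * nrm b L := by
    have h3 : t ^ (b - l) = t ^ (b - l - 1) * t := by
      rw [← pow_succ]
      congr 1
      omega
    have h4 : t ^ (b - l - 1) * (t * nrm b H) ≤ t ^ (b - l - 1) * (K₁ * nrm b L) := by
      calc t ^ (b - l - 1) * (t * nrm b H) = t ^ (b - l) * nrm b H := by rw [h3]; ring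
        _ ≤ nrm b (scal t H) := n4
        _ ≤ K₁ * nrm b (scal t L) := n1
        _ ≤ K₁ * (t ^ (b - l - 1) * nrm b L) := by (clear * - n3 hK₁; gcongr)
        _ = _ := by ring
    exact le_of_mul_le_mul_left h4 (by (clear * - hK₁ hK₂; positivity))
  have n6 : nrm b H = 0 := by
    have h3 : t * nrm b H ≤ K₁ * K₂ * nrm b H := by
      calc t * nrm b H ≤ K₁ * nrm b L := n5
        _ ≤ K₁ * (K₂ * nrm b H) := by (clear * - n2 hK₁; gcongr)
        _ = _ := by ring
    have h4 := nrm_nonneg b H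
    rw [ht] at h3
    nlinarith only [h4, h3]
  have n7 : nrm b L = 0 := by
    have := nrm_nonneg b L
    rw [n6, mul_zero] at n2
    linarith only [this, n2]
  apply hP0
  ext ε
  rw [coeff_zero]
  by_contra hε
  have hbε : ε ∈ box b := mem_box (hPV ε (mem_support_iff.mpr hε)).1
  have h3 := le_nrm (P := L) hbε
  have h4 := le_nrm (P := H) hbε
  rw [n7, cL] at h3
  rw [n6, cH] at h4
  split_ifs at h3 h4 with h5
  · exact hε (abs_nonpos_iff.mp h3)
  · exact hε (abs_nonpos_iff.mp h4)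

end Vale.Agent.P279
end
end

section

section

namespace Vale.Agent.P279

open MvPolynomial

/-- Block 1 and block 2 inequalities combined: pure arithmetic. -/
theorem key_arith1 {s c μ A ω : ℝ} (hs : 0 < s) (hc : 0 ≤ c) (hμ : 0 < μ) (hω : 0 ≤ ω)
    (h : c * (c / μ) + s * μ ≤ A * √((c / μ) ^ 2 + s + ω)) :
    c ^ 2 + s * μ ^ 2 - ω * μ ^ 2 ≤ A ^ 2 := by
  have h0 : 0 ≤ c * (c / μ) + s * μ := by positivity
  have h1 := mul_self_le_mul_self h0 h
  have h2 : A * √((c / μ) ^ 2 + s + ω) * (A * √((c / μ) ^ 2 + s + ω))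
      = A ^ 2 * ((c / μ) ^ 2 + s + ω) := by
    have := Real.mul_self_sqrt (show 0 ≤ (c / μ) ^ 2 + s + ω by positivity)
    linear_combination A ^ 2 * this
  rw [h2] at h1
  have h3 : (c ^ 2 + s * μ ^ 2) ^ 2 ≤ A ^ 2 * (c ^ 2 + s * μ ^ 2 + ω * μ ^ 2) := by
    have h4 := mul_le_mul_of_nonneg_left h1 (show 0 ≤ μ ^ 2 by positivity)
    have h5 : μ ^ 2 * ((c * (c / μ) + s * μ) * (c * (c / μ) + s * μ)) = (c ^ 2 + s * μ ^ 2) ^ 2 := by
      field_simp
    have h6 : μ ^ 2 * (A ^ 2 * ((c / μ) ^ 2 + s + ω)) = A ^ 2 * (c ^ 2 + s * μ ^ 2 + ω * μ ^ 2) := by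
      (clear * - hμ hs hω; field_simp)
    rw [h5, h6] at h4
    exact h4
  have h7 : 0 < c ^ 2 + s * μ ^ 2 := by positivity
  have h8 : 0 ≤ ω * μ ^ 2 := by positivity
  generalize c ^ 2 + s * μ ^ 2 = X at *
  generalize ω * μ ^ 2 = Y at *
  have h9 : (X - Y) * (X + Y) ≤ A ^ 2 * (X + Y) := by nlinarith only [h3, h8]
  exact le_of_mul_le_mul_right h9 (by linarith only [h7, h8])

theorem key_arith2 {t m A b ω : ℝ} (ht : 0 < t) (hm : 0 < m) (hA : 0 ≤ A) (hω : 0 ≤ ω)
    (h : A * (A / m) + t * m ≤ b * √((A / m) ^ 2 + t + ω)) :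
    A ^ 2 ≤ b ^ 2 - t * m ^ 2 + ω * m ^ 2 := by
  have := key_arith1 ht hA hm hω h
  linarith only [this]

/-- Consequence of the two bounds for the distance to the square root. -/
theorem key_arith3 {n m ω A G : ℝ} (hn : 1 ≤ n) (hm : 1 ≤ m) (hω : 0 ≤ ω) (hA : 0 ≤ A)
    (hG : n * m ^ 2 / 8 ≤ G) (h1 : G - 4 * ω * m ^ 2 ≤ A ^ 2)
    (h2 : A ^ 2 ≤ G + 2 * m / n + ω * m ^ 2) :
    |A - √G| ≤ 12 * (ω * m / √n) + 6 / n := by
  have hGpos : 0 < G := by
    have : 0 < n * m ^ 2 / 8 := by positivity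
    linarith only [hG, this]
  set g := √G with hg
  have hg0 : 0 < g := Real.sqrt_pos.mpr hGpos
  have hgg : g ^ 2 = G := Real.sq_sqrt hGpos.le
  have hsn : 0 < √n := Real.sqrt_pos.mpr (by linarith only [hn])
  have hsn2 : √n ^ 2 = n := Real.sq_sqrt (by linarith only [hn])
  have hsn1 : 1 ≤ √n := by
    rw [Real.one_le_sqrt]; exact hn
  -- g ≥ √n m / 3
  have hg1 : √n * m / 3 ≤ g := by
    apply le_of_sq_le_sq _ hg0.le
    rw [hgg]
    have : (√n * m / 3) ^ 2 = n * m ^ 2 / 9 := by rw [div_pow, mul_pow, hsn2]; norm_num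
    rw [this]
    have : 0 ≤ n * m ^ 2 := by positivity
    linarith only [hG, hGpos]
  have hprod : |A - g| * (A + g) = |A ^ 2 - G| := by
    rw [← hgg, show A ^ 2 - g ^ 2 = (A - g) * (A + g) by ring, abs_mul,
      abs_of_pos (show 0 < A + g by linarith only [hA, hg0])]
  have habs : |A ^ 2 - G| ≤ 4 * ω * m ^ 2 + 2 * m / n := by
    have h3 : 0 ≤ 2 * m / n := by positivity
    have h4 : 0 ≤ ω * m ^ 2 := by positivity
    rw [abs_le]
    constructor <;> linarith only [h1, h3, h2, h4]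
  have h5 : |A - g| * (√n * m / 3) ≤ 4 * ω * m ^ 2 + 2 * m / n := by
    calc |A - g| * (√n * m / 3) ≤ |A - g| * (A + g) := by
          gcongr
          linarith only [hA, hg1]
      _ ≤ _ := by rw [hprod]; exact habs
  have h6 : (12 * (ω * m / √n) + 6 / n) * (√n * m / 3) ≥ 4 * ω * m ^ 2 + 2 * m / n := by
    have h7 : (12 * (ω * m / √n) + 6 / n) * (√n * m / 3) = 4 * ω * m ^ 2 + 2 * m / n * √n := by
      field_simp
      ring
    rw [h7]
    have : 2 * m / n * 1 ≤ 2 * m / n * √n := by (clear * - hsn1 hm hn; gcongr)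
    linarith only [this]
  have h8 : |A - g| * (√n * m / 3) ≤ (12 * (ω * m / √n) + 6 / n) * (√n * m / 3) := h5.trans h6
  exact le_of_mul_le_mul_right h8 (by positivity)

/-- Splitting the near uniform vector. -/
theorem eff_split {s t b c e m : ℕ} (hs : 1 ≤ s) (hE : Eff b c (vec (s + t) e m)) :
    Eff b c (Sum.elim (vec s e m) (fun _ : Fin t => m)) := by
  have h := Eff.reindex (finSumFinEquiv : Fin s ⊕ Fin t ≃ Fin (s + t)) hE
  have h2 : vec (s + t) e m ∘ (finSumFinEquiv : Fin s ⊕ Fin t ≃ Fin (s + t))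
      = Sum.elim (vec s e m) (fun _ : Fin t => m) := by
    funext i
    rcases i with i | i
    · rfl
    · have : ¬ (((finSumFinEquiv (Sum.inr i : Fin s ⊕ Fin t) : Fin (s + t)) : ℕ) = 0) := by
        simp
        omega
      simp only [Function.comp, vec, Sum.elim_inr]
      rw [if_neg this]
  rwa [h2] at h

theorem near_abs {e m : ℝ} (hm : 1 ≤ m) (ha : (e - m) ^ 2 ≤ 2 * m) : |e - m| ≤ 2 * m := by
  apply abs_le_of_sq_le_sq _ (by positivity)
  nlinarith only [hm, ha]

theorem blk1 {s m d μ : ℝ} (hs : 6 ≤ s) (hm : 1 ≤ m) (h1 : -(2 * m) ≤ d) (h2 : d ≤ 2 * m)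
    (hμ : μ = (s * m + d) / s) :
    m / 2 ≤ μ ∧ μ ≤ 2 * m ∧ s * μ = s * m + d ∧ m ^ 2 * s + 2 * m * d ≤ s * μ ^ 2 := by
  subst hμ
  have hs0 : 0 < s := by linarith
  refine ⟨?_, ?_, ?_, ?_⟩
  · rw [le_div_iff₀ hs0]
    nlinarith only [hs, hm, h1]
  · rw [div_le_iff₀ hs0]
    nlinarith only [hs, hm, h2]
  · field_simp
  · have h10 : s * ((s * m + d) / s) ^ 2 = (s * m + d) ^ 2 / s := by
      field_simp
    rw [h10, le_div_iff₀ hs0]
    nlinarith only [sq_nonneg d]

theorem blk2 {s n c m μ κ : ℝ} (hκ : 1 ≤ κ) (hm : 1 ≤ m) (hn : n ≤ 4 * s)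
    (hc : c ^ 2 ≤ κ * n * m ^ 2) (hμ : m / 2 ≤ μ) :
    (c / μ) ^ 2 ≤ (16 * κ + 16) * s ∨ s < 0 := by
  by_cases hs : s < 0
  · exact Or.inr hs
  left
  have hs0 : 0 ≤ s := not_lt.mp hs
  have hμpos : 0 < μ := by linarith
  rw [div_pow, div_le_iff₀ (by positivity)]
  have h1 : (m / 2) ^ 2 ≤ μ ^ 2 := by gcongr
  calc c ^ 2 ≤ κ * n * m ^ 2 := hc
    _ ≤ κ * (4 * s) * m ^ 2 := by gcongr
    _ = (16 * κ) * s * (m / 2) ^ 2 := by ring
    _ ≤ (16 * κ + 16) * s * μ ^ 2 := by gcongr; linarith only []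

theorem blk3 {n b c e m : ℝ} (hn : 24 ≤ n) (ha : (e - m) ^ 2 ≤ 2 * m)
    (hb : n * b ^ 2 ≤ n * c ^ 2 + ((n - 1) * m + e) ^ 2) :
    b ^ 2 ≤ c ^ 2 + (n * m ^ 2 + 2 * m * (e - m) + 2 * m / n) := by
  have hn0 : 0 < n := by linarith
  have h1 : n * b ^ 2 ≤ n * (c ^ 2 + (n * m ^ 2 + 2 * m * (e - m) + 2 * m / n)) := by
    have h2 : n * (c ^ 2 + (n * m ^ 2 + 2 * m * (e - m) + 2 * m / n))
        = n * c ^ 2 + ((n * m) ^ 2 + 2 * (n * m) * (e - m) + 2 * m) := by
      field_simp
    rw [h2]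
    linarith
  exact le_of_mul_le_mul_left h1 hn0

theorem blk4 {n t b c e m A κ : ℝ} (hn : 24 ≤ n) (hm : 1 ≤ m) (hκ : 1 ≤ κ) (ht : n ≤ 4 * t)
    (he : e - m ≤ 2 * m) (hc : c ^ 2 ≤ κ * n * m ^ 2)
    (hb : b ^ 2 ≤ c ^ 2 + (n * m ^ 2 + 2 * m * (e - m) + 2 * m / n)) (hA : A ^ 2 ≤ b ^ 2) :
    (A / m) ^ 2 ≤ (16 * κ + 16) * t := by
  rw [div_pow, div_le_iff₀ (by positivity)]
  have h6 : 2 * m / n ≤ m ^ 2 := by
    rw [div_le_iff₀ (by linarith only [hn])]
    nlinarith only [hm, hn]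
  have h7 : 2 * m * (e - m) ≤ 4 * m ^ 2 := by nlinarith only [he, hm]
  have h8 : m ^ 2 * 5 ≤ n * m ^ 2 := by nlinarith only [hn]
  calc A ^ 2 ≤ κ * n * m ^ 2 + 2 * (n * m ^ 2) := by linarith
    _ = (κ + 2) * n * m ^ 2 := by ring
    _ ≤ (κ + 2) * (4 * t) * m ^ 2 := by gcongr
    _ = (4 * κ + 8) * t * m ^ 2 := by ring
    _ ≤ (16 * κ + 16) * t * m ^ 2 := by
      have : 0 ≤ t := by linarith only [hn, ht]
      gcongr <;> linarith only []

theorem block_bounds {n s t : ℕ} (hst : s + t = n) (hn : 24 ≤ n) (hs : n ≤ 4 * s) (ht : n ≤ 4 * t)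
    {b c e m : ℕ} {ω κ : ℝ} (hκ : 1 ≤ κ) (hω : 0 ≤ ω) (hm : 1 ≤ m)
    (hE : Eff b c (vec n e m)) (ha : ((e : ℝ) - m) ^ 2 ≤ 2 * m)
    (hc : (c : ℝ) ^ 2 ≤ κ * n * (m : ℝ) ^ 2)
    (hb : (n : ℝ) * (b : ℝ) ^ 2 ≤ n * (c : ℝ) ^ 2 + (((n : ℝ) - 1) * m + e) ^ 2)
    (hNs : ∀ γ : ℝ, 0 ≤ γ → γ ^ 2 ≤ (16 * κ + 16) * s → Nef s γ ω)
    (hNt : ∀ γ : ℝ, 0 ≤ γ → γ ^ 2 ≤ (16 * κ + 16) * t → Nef t γ ω) :
    (c : ℝ) ^ 2 + 2 * m * ((e : ℝ) - m) + s * (m : ℝ) ^ 2 - 4 * ω * (m : ℝ) ^ 2
        ≤ ((sInf {l : ℕ | Eff l c (vec s e m)} : ℕ) : ℝ) ^ 2 ∧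
      ((sInf {l : ℕ | Eff l c (vec s e m)} : ℕ) : ℝ) ^ 2
        ≤ (c : ℝ) ^ 2 + 2 * m * ((e : ℝ) - m) + s * (m : ℝ) ^ 2 + 2 * m / n
          + ω * (m : ℝ) ^ 2 := by
  have hsR : (6 : ℝ) ≤ s := by exact_mod_cast (by omega : 6 ≤ s)
  have htR : (6 : ℝ) ≤ t := by exact_mod_cast (by omega : 6 ≤ t)
  have hmR : (1 : ℝ) ≤ m := by exact_mod_cast hm
  have hnR : (24 : ℝ) ≤ n := by exact_mod_cast hn
  have hs4 : (n : ℝ) ≤ 4 * s := by exact_mod_cast hs
  have ht4 : (n : ℝ) ≤ 4 * t := by exact_mod_cast ht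
  have hstR : (s : ℝ) + t = n := by exact_mod_cast hst
  have hsplit : Eff b c (Sum.elim (vec s e m) (fun _ : Fin t => m)) := by
    apply eff_split (by omega)
    rw [hst]
    exact hE
  set L : Set ℕ := {l : ℕ | Eff l c (vec s e m)} with hL
  have hbL : b ∈ L := hsplit.inl
  have hAmem : sInf L ∈ L := Nat.sInf_mem ⟨b, hbL⟩
  set A := sInf L with hA
  have hAE : Eff A c (vec s e m) := hAmem
  have hAb : A ≤ b := Nat.sInf_le hbL
  obtain ⟨ha1, ha2⟩ := abs_le.mp (near_abs hmR ha)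
  -- block 1
  obtain ⟨hμlow, hμup, hμs, hμ9⟩ := blk1 hsR hmR ha1 ha2 (rfl : ((s : ℝ) * m + (e - m)) / s = _)
  set μ₁ : ℝ := ((s : ℝ) * m + (e - m)) / s with hμ₁
  have hμpos : 0 < μ₁ := by linarith only [hmR, hμlow]
  have hγ₁ : ((c : ℝ) / μ₁) ^ 2 ≤ (16 * κ + 16) * s := by
    rcases blk2 hκ hmR hs4 hc hμlow with h | h
    · exact h
    · linarith only [h]
  have hN1 := hNs (c / μ₁) (by (clear * - hμpos; positivity)) hγ₁ A c (vec s e m) hAE
  rw [sum_vec s e m (by omega), show ((s : ℝ) - 1) * m + e = s * μ₁ by rw [hμs]; ring] at hN1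
  have hK1 := key_arith1 (by linarith only [hsR]) (by (clear * -; positivity)) hμpos hω hN1
  -- A ≥ 1
  have hA1 : 1 ≤ A := by
    by_contra h0
    have h0' : A = 0 := by omega
    rw [h0'] at hN1
    have h2 : 0 ≤ (c : ℝ) * (c / μ₁) := by (clear * - hμpos; positivity)
    have h3 : 0 < (s : ℝ) * μ₁ := by (clear * - hsR hμpos; positivity)
    simp only [Nat.cast_zero, zero_mul] at hN1
    linarith only [h2, h3, hN1]
  have hglue := glue b c (A - 1) (vec s e m) (fun _ : Fin t => m) (by omega) hsplit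
  have hAmin : ¬ Eff (A - 1) c (vec s e m) := by
    have : A - 1 < sInf L := by omega
    exact Nat.notMem_of_lt_sInf this
  have hE2 : Eff b A (fun _ : Fin t => m) := by
    rcases hglue with h | h
    · exact absurd h hAmin
    · rwa [Nat.sub_add_cancel hA1] at h
  -- upper bound for b^2
  have hb' := blk3 hnR ha hb
  -- block 2
  have hAbR : (A : ℝ) ^ 2 ≤ (b : ℝ) ^ 2 := by
    have : (A : ℝ) ≤ b := by exact_mod_cast hAb
    (clear * - hA1 this; gcongr)
  have hγ₂ : ((A : ℝ) / m) ^ 2 ≤ (16 * κ + 16) * t := blk4 hnR hmR hκ ht4 ha2 hc hb' hAbR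
  have hN2 := hNt (A / m) (by positivity) hγ₂ b A _ hE2
  simp only [Finset.sum_const, Finset.card_univ, Fintype.card_fin, nsmul_eq_mul] at hN2
  have hK2 := key_arith2 (by linarith only [htR]) (by linarith only [hmR]) (by (clear * - hA1; positivity)) hω hN2
  constructor
  · -- lower bound
    have h11 : ω * μ₁ ^ 2 ≤ ω * (2 * m) ^ 2 := by (clear * - hμpos hμup hω; gcongr)
    linarith only [hμ9, hK1, h11]
  · have h12 : (t : ℝ) = n - s := by linarith only [hstR]
    rw [h12] at hK2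
    linarith only [hb', hK2]

end Vale.Agent.P279
end
end

section

section

namespace Vale.Agent.P279

open Finset

theorem fwd_bounds (l : ℕ) : ∀ (F : ℕ → ℝ → ℝ) (u v h a b : ℝ), 0 < h →
    (∀ k < l, ∀ x, u ≤ x → x ≤ v → HasDerivAt (F k) (F (k + 1) x) x) →
    (∀ x, u ≤ x → x ≤ v → a ≤ F l x ∧ F l x ≤ b) →
    ∀ x, u ≤ x → x + l * h ≤ v →
      a * h ^ l ≤ (fwdDiff h)^[l] (F 0) x ∧ (fwdDiff h)^[l] (F 0) x ≤ b * h ^ l := by
  induction l with
  | zero =>
    intro F u v h a b hh _ hF x hx1 hx2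
    have := hF x hx1 (by simpa only [CharP.cast_eq_zero, zero_mul, add_zero] using hx2)
    simpa only [pow_zero, mul_one, Function.iterate_zero, id_eq] using this
  | succ l ih =>
    intro F u v h a b hh hd hF x hx1 hx2
    rw [Function.iterate_succ_apply]
    have hG := ih (fun k x => F k (x + h) - F k x) u (v - h) h (a * h) (b * h) hh ?_ ?_ x hx1 ?_
    · have h1 : a * h ^ (l + 1) = a * h * h ^ l := by ring
      have h2 : b * h ^ (l + 1) = b * h * h ^ l := by ring
      rw [h1, h2]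
      exact hG
    · intro k hk y hy1 hy2
      have h1 := hd k (by omega) (y + h) (by linarith only [hh, hy1]) (by linarith only [hy2])
      have h2 := hd k (by omega) y (by linarith only [hy1]) (by linarith only [hh, hy2])
      exact (h1.comp_add_const y h).sub h2
    · intro y hy1 hy2
      obtain ⟨c, hc, hc'⟩ := exists_hasDerivAt_eq_slope (F l) (F (l + 1)) (a := y) (b := y + h)
        (by linarith)
        (fun z hz => (hd l (by omega) z (by linarith only [hy1, hz.1]) (by linarith only [hy2, hz.2])).continuousAt.continuousWithinAt)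
        (fun z hz => hd l (by omega) z (by linarith only [hy1, hz.1]) (by linarith only [hy2, hz.2]))
      have h3 := hF c (by linarith only [hy1, hc.1]) (by linarith only [hy2, hc.2])
      have h4 : F l (y + h) - F l y = F (l + 1) c * h := by
        rw [hc', add_sub_cancel_left, div_mul_cancel₀ _ hh.ne']
      rw [h4]
      constructor
      · exact mul_le_mul_of_nonneg_right h3.1 hh.le
      · exact mul_le_mul_of_nonneg_right h3.2 hh.le
    · push_cast at hx2
      linarith only [hx2]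

theorem fwd_close (A : ℕ → ℤ) (g : ℝ → ℝ) (h : ℕ) (ε : ℝ) : ∀ (l s : ℕ),
    (∀ j ≤ l, |(A (s + j * h) : ℝ) - g ((s + j * h : ℕ) : ℝ)| ≤ ε) →
    |(((fwdDiff h)^[l] A s : ℤ) : ℝ) - (fwdDiff (h : ℝ))^[l] g (s : ℝ)| ≤ 2 ^ l * ε := by
  intro l
  induction l with
  | zero =>
    intro s hs
    have := hs 0 le_rfl
    simpa only [Function.iterate_zero, id_eq, pow_zero, one_mul, ge_iff_le, zero_mul, add_zero] using this
  | succ l ih =>
    intro s hs
    rw [Function.iterate_succ_apply', Function.iterate_succ_apply']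
    have h1 := ih s (fun j hj => hs j (by omega))
    have h2 := ih (s + h) (fun j hj => by
      have := hs (j + 1) (by omega)
      rw [show s + (j + 1) * h = s + h + j * h by ring] at this
      exact this)
    unfold fwdDiff at *
    push_cast at *
    have h3 : ((fun f n => f (n + h) - f n)^[l] A (s + h) : ℝ) - ((fun f n => f (n + h) - f n)^[l] A s : ℝ)
      - ((fun f n => f (n + (h : ℝ)) - f n)^[l] g (s + h) - (fun f n => f (n + (h : ℝ)) - f n)^[l] g s)
      = (((fun f n => f (n + h) - f n)^[l] A (s + h) : ℝ) - (fun f n => f (n + (h : ℝ)) - f n)^[l] g (s + h))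
      - (((fun f n => f (n + h) - f n)^[l] A s : ℝ) - (fun f n => f (n + (h : ℝ)) - f n)^[l] g s) := by ring
    rw [h3]
    refine (abs_sub _ _).trans ?_
    rw [pow_succ]
    linarith only [h1, h2]

theorem fwd_comm (h k : ℕ) : Function.Commute (fwdDiff h : (ℕ → ℤ) → ℕ → ℤ) (fwdDiff k) := by
  intro A
  funext s
  simp only [fwdDiff]
  rw [show s + h + k = s + k + h by ring]
  ring

theorem fwd_tele (A : ℕ → ℤ) (s H : ℕ) : fwdDiff H A s = ∑ t ∈ range H, fwdDiff 1 A (s + t) := by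
  induction H with
  | zero => simp [fwdDiff]
  | succ H ih =>
    rw [sum_range_succ, ← ih]
    simp only [fwdDiff]
    rw [show s + (H + 1) = s + H + 1 by ring]
    ring

theorem fwd_vanish (H : ℕ) (l : ℕ) : ∀ (A : ℕ → ℤ) (u v : ℕ),
    (∀ s, u ≤ s → s + l ≤ v → (fwdDiff 1)^[l] A s = 0) →
    ∀ s, u ≤ s → s + l * H ≤ v → (fwdDiff H)^[l] A s = 0 := by
  induction l with
  | zero =>
    intro A u v h s hs1 hs2
    exact h s hs1 (by simpa only [add_zero, zero_mul] using hs2)
  | succ l ih =>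
    intro A u v h s hs1 hs2
    rw [Function.iterate_succ_apply]
    have hv : H ≤ v := by nlinarith only [hs2]
    apply ih (fwdDiff H A) u (v - H) _ s hs1
    · have : (l + 1) * H = l * H + H := by ring
      omega
    · intro s' hs1' hs2'
      have h1 := (fwd_comm 1 H).iterate_left l A
      rw [h1, fwd_tele]
      apply sum_eq_zero
      intro t ht
      rw [mem_range] at ht
      have := h (s' + t) (by omega) (by omega)
      rwa [Function.iterate_succ_apply'] at this

/-- The coefficients of the iterated derivatives of `x ^ (1/2)`. -/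
noncomputable def cf : ℕ → ℝ
  | 0 => 1
  | k + 1 => cf k * (1 / 2 - k)

theorem cf_zero : cf 0 = 1 := rfl

theorem cf_succ (k : ℕ) : cf (k + 1) = cf k * (1 / 2 - k) := rfl

theorem cf_ne (k : ℕ) : cf k ≠ 0 := by
  induction k with
  | zero => rw [cf_zero]; norm_num
  | succ k ih =>
    rw [cf_succ]
    apply mul_ne_zero ih
    intro h
    have h1 : (1 : ℝ) = 2 * k := by linarith
    have h2 : (1 : ℕ) = 2 * k := by exact_mod_cast h1
    omega

theorem hasDerivAt_cf (l k : ℕ) (m z x : ℝ) (hx : 0 < x + z) :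
    HasDerivAt (fun x => m * (cf k / cf l) * (x + z) ^ ((1 : ℝ) / 2 - k))
      (m * (cf (k + 1) / cf l) * (x + z) ^ ((1 : ℝ) / 2 - (k + 1 : ℕ))) x := by
  have h1 : HasDerivAt (fun x : ℝ => x + z) 1 x := (hasDerivAt_id x).add_const z
  have h2 := (h1.rpow_const (p := (1 : ℝ) / 2 - k) (Or.inl hx.ne')).const_mul (m * (cf k / cf l))
  refine h2.congr_deriv ?_
  rw [cf_succ]
  push_cast
  rw [show (1 : ℝ) / 2 - (k + 1) = 1 / 2 - k - 1 by ring]
  ring

/-- Bounds for the iterated differences of `m * √(x + z)`. -/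
theorem sqrt_bounds (l : ℕ) (hl : 1 ≤ l) (m z u v h : ℝ) (hm : 0 ≤ m) (hh : 0 < h)
    (hu : 0 < u + z) (x : ℝ) (hx1 : u ≤ x) (hx2 : x + l * h ≤ v) :
    ∃ T : ℝ, (fwdDiff h)^[l] (fun x => m * √(x + z)) x = cf l * T ∧
      m * (v + z) ^ ((1 : ℝ) / 2 - l) * h ^ l ≤ T ∧ T ≤ m * (u + z) ^ ((1 : ℝ) / 2 - l) * h ^ l := by
  have hlR : (1 : ℝ) ≤ l := by exact_mod_cast hl
  have key := fwd_bounds l (fun k x => m * (cf k / cf l) * (x + z) ^ ((1 : ℝ) / 2 - k)) u v h
    (m * (v + z) ^ ((1 : ℝ) / 2 - l)) (m * (u + z) ^ ((1 : ℝ) / 2 - l)) hh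
    (fun k _ x hx _ => hasDerivAt_cf l k m z x (by linarith only [hu, hx])) ?_ x hx1 hx2
  · refine ⟨_, ?_, key.1, key.2⟩
    have h1 : (fun x => m * √(x + z)) = cf l • (fun x : ℝ => m * (cf 0 / cf l) * (x + z) ^ ((1 : ℝ) / 2 - (0 : ℕ))) := by
      funext x
      rw [Pi.smul_apply, smul_eq_mul, Real.sqrt_eq_rpow, cf_zero]
      have := cf_ne l
      field_simp
      simp
    rw [h1, fwdDiff_iter_const_smul]
    rfl
  · intro x hx1 hx2
    rw [div_self (cf_ne l), mul_one]
    have hx0 : 0 < x + z := by linarith only [hu, hx1]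
    constructor
    · apply mul_le_mul_of_nonneg_left _ hm
      apply Real.rpow_le_rpow_of_nonpos hx0 (by linarith only [hx2]) (by linarith only [hlR])
    · apply mul_le_mul_of_nonneg_left _ hm
      apply Real.rpow_le_rpow_of_nonpos hu (by linarith only [hx1]) (by linarith only [hlR])

theorem diff_contradiction (l : ℕ) (hl : 1 ≤ l) (κ : ℝ) (hκ : 1 ≤ κ) :
    ∃ ε : ℝ, 0 < ε ∧ ∃ n₀ : ℕ, ∀ n : ℕ, n₀ ≤ n → ∀ m : ℝ, 1 ≤ m →
      m ≤ ε * (n : ℝ) ^ ((l : ℝ) - 1 / 2) → ∀ y : ℝ, -(n * m ^ 2 / 8) ≤ y → y ≤ κ * n * m ^ 2 →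
      ∀ A : ℕ → ℤ, (∀ s : ℕ, n ≤ 4 * s → 4 * s ≤ 3 * n →
        |(A s : ℝ) - √(y + s * m ^ 2)| ≤ ε) → False := by
  have hlR : (1 : ℝ) ≤ l := by exact_mod_cast hl
  have hcf : 0 < |cf l| := abs_pos.mpr (cf_ne l)
  set ε : ℝ := min (1 / (4 * 2 ^ l)) (1 / (4 * (|cf l| * 8 ^ ((l : ℝ) - 1 / 2)))) with hε
  have hε0 : 0 < ε := by positivity
  have hε1 : 2 ^ l * ε ≤ 1 / 4 := by
    have : ε ≤ 1 / (4 * 2 ^ l) := min_le_left _ _
    calc 2 ^ l * ε ≤ 2 ^ l * (1 / (4 * 2 ^ l)) := by (clear * - this; gcongr)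
      _ = 1 / 4 := by field_simp
  have hε2 : |cf l| * 8 ^ ((l : ℝ) - 1 / 2) * ε ≤ 1 / 4 := by
    have : ε ≤ 1 / (4 * (|cf l| * 8 ^ ((l : ℝ) - 1 / 2))) := min_le_right _ _
    calc |cf l| * 8 ^ ((l : ℝ) - 1 / 2) * ε
        ≤ |cf l| * 8 ^ ((l : ℝ) - 1 / 2) * (1 / (4 * (|cf l| * 8 ^ ((l : ℝ) - 1 / 2)))) := by gcongr
      _ = 1 / 4 := by field_simp
  -- constant for the lower bound
  set D : ℝ := |cf l| * ((κ + 1) ^ ((1 : ℝ) / 2 - l) * (1 / (16 * (l : ℝ))) ^ l) with hD
  have hD0 : 0 < D := by positivity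
  refine ⟨ε, hε0, max (16 * l) (⌈(1 / D) ^ 2⌉₊), ?_⟩
  intro n hn m hm hmn y hy1 hy2 A hA
  have hn16 : 16 * l ≤ n := le_trans (le_max_left _ _) hn
  have hnD : (1 / D) ^ 2 ≤ n := le_trans (Nat.le_ceil _) (by exact_mod_cast le_trans (le_max_right _ _) hn)
  have hn16R : 16 * (l : ℝ) ≤ n := by exact_mod_cast hn16
  have hnpos : (0 : ℝ) < n := by linarith only [hlR, hn16R]
  have hm0 : 0 < m := by linarith only [hm]
  set z : ℝ := y / m ^ 2 with hz
  have hz1 : -(n / 8) ≤ z := by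
    rw [hz, le_div_iff₀ (by positivity)]
    linarith only [hy1]
  have hz2 : z ≤ κ * n := by
    rw [hz, div_le_iff₀ (by (clear * - hm; positivity))]
    linarith only [hy2]
  have hg : ∀ x : ℝ, √(y + x * m ^ 2) = m * √(x + z) := by
    intro x
    rw [show y + x * m ^ 2 = m ^ 2 * (x + z) by rw [hz]; field_simp; ring,
      Real.sqrt_mul (by positivity), Real.sqrt_sq hm0.le]
  -- interval
  obtain ⟨u, hu1, hu2⟩ : ∃ u : ℕ, n ≤ 4 * u ∧ 4 * u ≤ n + 3 := ⟨(n + 3) / 4, by (clear * -; omega), by omega⟩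
  obtain ⟨v, hv1, hv2⟩ : ∃ v : ℕ, 4 * v ≤ 3 * n ∧ 3 * n ≤ 4 * v + 3 := ⟨3 * n / 4, by omega, by omega⟩
  have huv : u + 4 * l ≤ v := by omega
  have huR : (n : ℝ) / 4 ≤ u := by
    have : (n : ℝ) ≤ 4 * u := by exact_mod_cast hu1
    linarith only [this]
  have hvR : (v : ℝ) ≤ 3 * n / 4 := by
    have : (4 : ℝ) * v ≤ 3 * n := by exact_mod_cast hv1
    linarith only [this]
  have hclose : ∀ s : ℕ, u ≤ s → s ≤ v → |(A s : ℝ) - (fun x : ℝ => m * √(x + z)) (s : ℝ)| ≤ ε := by
    intro s hs1 hs2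
    have := hA s (by (clear * - hu1 hu2 hs1; omega)) (by omega)
    rwa [hg] at this
  have huz : (n : ℝ) / 8 ≤ u + z := by linarith only [hz1, huR]
  have huz0 : (0 : ℝ) < u + z := by linarith only [hlR, hn16R, hz1, huR]
  -- short differences vanish
  have hvan : ∀ s, u ≤ s → s + l ≤ v → (fwdDiff 1)^[l] A s = 0 := by
    intro s hs1 hs2
    have h1 := fwd_close A (fun x => m * √(x + z)) 1 ε l s (fun j hj => by
      have := hclose (s + j * 1) (by omega) (by omega)
      exact_mod_cast this)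
    obtain ⟨T, hT, hT1, hT2⟩ := sqrt_bounds l hl m z u v 1 hm0.le one_pos huz0 s
      (by exact_mod_cast hs1) (by
        have : ((s + l : ℕ) : ℝ) ≤ v := by exact_mod_cast hs2
        push_cast at this
        linarith only [this])
    rw [Nat.cast_one, hT] at h1
    have hT0 : 0 ≤ T := le_trans (by
      have : 0 ≤ (v : ℝ) + z := by
        have : (u : ℝ) ≤ v := by exact_mod_cast (by omega : u ≤ v)
        linarith only [hz1, huR, this]
      (clear * - hm this; positivity)) hT1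
    have h2 : |cf l * T| ≤ 1 / 4 := by
      rw [abs_mul, abs_of_nonneg hT0]
      have h3 : T ≤ ε * 8 ^ ((l : ℝ) - 1 / 2) := by
        refine hT2.trans ?_
        rw [one_pow, mul_one]
        have h4 : ((u : ℝ) + z) ^ ((1 : ℝ) / 2 - l) ≤ ((n : ℝ) / 8) ^ ((1 : ℝ) / 2 - l) :=
          Real.rpow_le_rpow_of_nonpos (by linarith only [hlR, hn16R]) huz (by linarith only [hlR])
        calc m * ((u : ℝ) + z) ^ ((1 : ℝ) / 2 - l)
            ≤ (ε * (n : ℝ) ^ ((l : ℝ) - 1 / 2)) * ((n : ℝ) / 8) ^ ((1 : ℝ) / 2 - l) := by (clear * - hmn h4 huz0 hcf hnpos; gcongr)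
          _ = ε * 8 ^ ((l : ℝ) - 1 / 2) := by
            rw [Real.div_rpow hnpos.le (by norm_num),
              show (1 : ℝ) / 2 - l = -((l : ℝ) - 1 / 2) by ring,
              Real.rpow_neg hnpos.le, Real.rpow_neg (by norm_num)]
            (clear * - hnpos hε0; field_simp)
      calc |cf l| * T ≤ |cf l| * (ε * 8 ^ ((l : ℝ) - 1 / 2)) := by (clear * - h3 hcf; gcongr)
        _ = |cf l| * 8 ^ ((l : ℝ) - 1 / 2) * ε := by ring
        _ ≤ 1 / 4 := hε2
    have h5 : |(((fwdDiff 1)^[l] A s : ℤ) : ℝ)| < 1 := by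
      have h6 := abs_add_le ((((fwdDiff 1)^[l] A s : ℤ) : ℝ) - cf l * T) (cf l * T)
      rw [sub_add_cancel] at h6
      linarith only [hε1, h1, h2, h6]
    have h7 : |(fwdDiff 1)^[l] A s| < 1 := by exact_mod_cast h5
    exact Int.abs_lt_one_iff.mp h7
  -- long differences
  obtain ⟨H, hH1, hH2⟩ : ∃ H : ℕ, 8 * l * H ≤ n ∧ n < 8 * l * (H + 1) := by
    refine ⟨n / (8 * l), Nat.mul_div_le _ _, ?_⟩
    exact Nat.lt_mul_div_succ n (by (clear * - hl; omega))
  have hHl : u + l * H ≤ v := by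
    have : 8 * (l * H) ≤ n := by rw [← mul_assoc]; exact hH1
    omega
  have hHpos : 1 ≤ H := by
    by_contra h
    have : H = 0 := by omega
    subst this
    omega
  have hHR : (1 / (16 * (l : ℝ))) * n ≤ H := by
    have h1 : (n : ℝ) < 8 * l * (H + 1) := by exact_mod_cast hH2
    have h2 : (1 : ℝ) ≤ H := by exact_mod_cast hHpos
    rw [div_mul_eq_mul_div, one_mul, div_le_iff₀ (by positivity)]
    nlinarith only [hn16R, h1]
  have hz0 := fwd_vanish H l A u v hvan u le_rfl hHl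
  have h1 := fwd_close A (fun x => m * √(x + z)) H ε l u (fun j hj => by
    apply hclose
    · omega
    · have : j * H ≤ l * H := Nat.mul_le_mul_right _ hj
      omega)
  obtain ⟨T, hT, hT1, hT2⟩ := sqrt_bounds l hl m z u v H hm0.le (by exact_mod_cast hHpos) huz0 u
      le_rfl (by exact_mod_cast hHl)
  rw [hz0, hT, Int.cast_zero, zero_sub, abs_neg, abs_mul] at h1
  have hvz : (v : ℝ) + z ≤ (κ + 1) * n := by linarith only [hz2, hvR]
  have hvz0 : 0 < (v : ℝ) + z := by
    have : (u : ℝ) ≤ v := by exact_mod_cast (by omega : u ≤ v)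
    linarith only [hlR, hn16R, hz1, huR, this]
  have hTlow : ((κ + 1) ^ ((1 : ℝ) / 2 - l) * (1 / (16 * (l : ℝ))) ^ l) * √n ≤ T := by
    refine le_trans ?_ hT1
    have h2 : ((κ + 1) * n) ^ ((1 : ℝ) / 2 - l) ≤ ((v : ℝ) + z) ^ ((1 : ℝ) / 2 - l) :=
      Real.rpow_le_rpow_of_nonpos hvz0 hvz (by linarith only [hlR])
    calc ((κ + 1) ^ ((1 : ℝ) / 2 - l) * (1 / (16 * (l : ℝ))) ^ l) * √n
        = 1 * ((κ + 1) * n) ^ ((1 : ℝ) / 2 - l) * ((1 / (16 * (l : ℝ))) * n) ^ l := by
          rw [Real.mul_rpow (by linarith only [hκ]) hnpos.le, mul_pow, Real.sqrt_eq_rpow,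
            Real.rpow_sub hnpos, Real.rpow_natCast]
          (clear * - hnpos hl hκ; field_simp)
      _ ≤ m * ((v : ℝ) + z) ^ ((1 : ℝ) / 2 - l) * (H : ℝ) ^ l := by (clear * - hm h2 hκ hnpos hl hHR hvz0; gcongr)
  have hT0 : 0 < T := lt_of_lt_of_le (by (clear * - hκ hl hnpos; positivity)) hTlow
  rw [abs_of_pos hT0] at h1
  have h3 : D * √n ≤ |cf l| * T := by
    rw [hD, mul_assoc]
    (clear * - hTlow hcf; gcongr)
  have h4 : 1 ≤ D * √n := by
    have := Real.le_sqrt_of_sq_le hnD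
    rw [div_le_iff₀ hD0] at this
    linarith only [this]
  linarith only [hε1, h1, h3, h4]

end Vale.Agent.P279
end
end

section

section

namespace Vale.Agent.P279

open MvPolynomial

theorem key_lemma (l : ℕ) (hl : 1 ≤ l) (κ : ℝ) (hκ : 1 ≤ κ) :
    ∃ ε : ℝ, 0 < ε ∧ ∃ n₀ : ℕ, ∀ n : ℕ, n₀ ≤ n → ∀ b c e m : ℕ, 1 ≤ m → Eff b c (vec n e m) →
      ((e : ℝ) - m) ^ 2 ≤ 2 * m → (c : ℝ) ^ 2 ≤ κ * n * (m : ℝ) ^ 2 →
      (n : ℝ) * (b : ℝ) ^ 2 ≤ n * (c : ℝ) ^ 2 + (((n : ℝ) - 1) * m + e) ^ 2 →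
      (m : ℝ) ≤ ε * (n : ℝ) ^ ((l : ℝ) - 1 / 2) → ∀ ω : ℝ, 0 ≤ ω → ω * m ≤ ε * √n →
      (∀ s : ℕ, n ≤ 4 * s → ∀ γ : ℝ, 0 ≤ γ → γ ^ 2 ≤ (16 * κ + 16) * s → Nef s γ ω) → False := by
  obtain ⟨ε, hε, nD, hD⟩ := diff_contradiction l hl (κ + 1) (by linarith only [hκ])
  refine ⟨ε / 24, by positivity, max (max nD 32) ⌈12 / ε⌉₊, ?_⟩
  intro n hn b c e m hm hE ha hc hb hmn ω hω hωm hN
  have hnD : nD ≤ n := le_trans (le_trans (le_max_left _ _) (le_max_left _ _)) hn
  have hn32 : 32 ≤ n := le_trans (le_trans (le_max_right _ _) (le_max_left _ _)) hn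
  have hnε : ⌈12 / ε⌉₊ ≤ n := le_trans (le_max_right _ _) hn
  have hnR : (32 : ℝ) ≤ n := by exact_mod_cast hn32
  have hmR : (1 : ℝ) ≤ m := by exact_mod_cast hm
  have hnε' : 12 / ε ≤ n := le_trans (Nat.le_ceil _) (by exact_mod_cast hnε)
  have h6n : 6 / (n : ℝ) ≤ ε / 2 := by
    rw [div_le_iff₀ hε] at hnε'
    rw [div_le_iff₀ (by linarith only [hnR])]
    linarith only [hnε']
  obtain ⟨ha1, ha2⟩ := abs_le.mp (near_abs hmR ha)
  have hpow : (0 : ℝ) ≤ (n : ℝ) ^ ((l : ℝ) - 1 / 2) := by positivity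
  apply hD n hnD (m : ℝ) hmR (hmn.trans (by gcongr; linarith only [hε]))
    ((c : ℝ) ^ 2 + 2 * m * ((e : ℝ) - m)) ?_ ?_
    (fun s => ((sInf {l : ℕ | Eff l c (vec s e m)} : ℕ) : ℤ)) ?_
  · nlinarith only [hnR]
  · nlinarith only [hc, hnR, ha2]
  · intro s hs1 hs2
    obtain ⟨t, ht⟩ : ∃ t, s + t = n := ⟨n - s, by omega⟩
    have ht4 : n ≤ 4 * t := by omega
    obtain ⟨h1, h2⟩ := block_bounds ht (by omega) hs1 ht4 hκ hω hm hE ha hc hb (hN s hs1)
      (hN t ht4)
    have hs4 : (n : ℝ) ≤ 4 * s := by exact_mod_cast hs1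
    have hG : (n : ℝ) * (m : ℝ) ^ 2 / 8
        ≤ (c : ℝ) ^ 2 + 2 * m * ((e : ℝ) - m) + s * (m : ℝ) ^ 2 := by
      have h3 : 0 ≤ (m : ℝ) ^ 2 * (4 * s - n) := by
        apply mul_nonneg (by positivity); linarith only [hs4]
      have h4 : 0 ≤ (m : ℝ) ^ 2 * (n - 32) := by
        apply mul_nonneg (by positivity); linarith only [hnR]
      nlinarith only [h3, h4]
    have h5 := key_arith3 (by linarith only [hnR]) hmR hω (by (clear * -; positivity)) hG h1 h2
    have hsn : 0 < √(n : ℝ) := Real.sqrt_pos.mpr (by linarith only [hnR])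
    have h6 : ω * m / √n ≤ ε / 24 := by
      rw [div_le_iff₀ hsn]; exact hωm
    have h7 : 12 * (ω * m / √n) + 6 / n ≤ ε := by linarith only [h6n, h6]
    push_cast
    exact h5.trans h7

/-- The induction statement. -/
def PP (j : ℕ) : Prop :=
  ∀ κ : ℝ, 0 ≤ κ → ∃ C : ℝ, 0 ≤ C ∧ ∃ n₀ : ℕ, ∀ n : ℕ, n₀ ≤ n → ∀ γ : ℝ, 0 ≤ γ →
    γ ^ 2 ≤ κ * n → Nef n γ (C / (√n) ^ j)

theorem eff_zero {n c : ℕ} {m : Fin n → ℕ} (h : Eff 0 c m) : c = 0 ∧ ∀ i, m i = 0 := by
  obtain ⟨P, hP, hV, hm⟩ := h (fun _ _ => 0)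
  obtain ⟨δ, hδ⟩ := MvPolynomial.support_nonempty.mpr hP
  have hc : c = 0 := by have := (hV δ hδ).2; omega
  refine ⟨hc, fun i => ?_⟩
  by_contra hi
  have hPC : ∀ δ ∈ P.support, δ = 0 := by
    intro δ hδ
    have h0 := (hV δ hδ).1
    ext k
    fin_cases k
    · simp only [Fin.zero_eta, Fin.isValue, Finsupp.coe_zero, Pi.zero_apply]; omega
    · simp only [Fin.mk_one, Fin.isValue, Finsupp.coe_zero, Pi.zero_apply]; omega
  have hδ0 := hPC δ hδ
  subst hδ0
  have hPeq : P = C (coeff 0 P) := by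
    ext δ
    by_cases hδ' : δ = 0
    · subst hδ'; simp
    · rw [coeff_C, if_neg (Ne.symm hδ')]
      by_contra h
      exact hδ' (hPC δ (mem_support_iff.mpr h))
  have h1 := hm i 0 (by simp only [Fin.isValue, Finsupp.coe_zero, Pi.zero_apply, add_zero]; omega)
  rw [hPeq, shift, ← algebraMap_eq, AlgHom.commutes, algebraMap_eq, coeff_zero_C] at h1
  rw [h1] at hPeq
  simp at hPeq
  exact hP hPeq

theorem viol_of_not_nef {n : ℕ} {γ ω : ℝ} (h : ¬ Nef n γ ω) :
    ∃ (b c : ℕ) (m : Fin n → ℕ), 1 ≤ b ∧ Eff b c m ∧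
      b * √(γ ^ 2 + n + ω) ≤ c * γ + ∑ i, (m i : ℝ) := by
  simp only [Nef, not_forall, not_le] at h
  obtain ⟨b, c, m, hE, hv⟩ := h
  refine ⟨b, c, m, ?_, hE, hv.le⟩
  by_contra hb
  have hb0 : b = 0 := by omega
  subst hb0
  obtain ⟨hc, hm⟩ := eff_zero hE
  simp only [CharP.cast_eq_zero, zero_mul, hc, hm, Finset.sum_const_zero, add_zero, lt_self_iff_false] at hv

theorem PP_zero : PP 0 := by
  intro κ hκ
  refine ⟨2 * (κ + 1) + 1, by positivity, max 10 ⌈4 * κ + 2⌉₊, ?_⟩
  intro n hn γ hγ hγκ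
  by_contra hnef
  obtain ⟨b, c, m, hb, hE, hv⟩ := viol_of_not_nef hnef
  have hn10 : 10 ≤ n := le_trans (le_max_left _ _) hn
  have hnκ : 4 * κ + 2 ≤ n := le_trans (Nat.le_ceil _) (by
    exact_mod_cast le_trans (le_max_right _ _) hn)
  obtain ⟨b', c', e, μ, -, -, -, hμ, -, -, -, -, hω⟩ :=
    shape hn10 hκ hnκ hγ hγκ (by positivity) hb hE hv
  have hμR : (1 : ℝ) ≤ μ := by exact_mod_cast hμ
  simp only [pow_zero, div_one] at hω
  nlinarith only [hμR, hω, hκ]

theorem PP_succ (j : ℕ) (ih : PP j) : PP (j + 1) := by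
  intro κ hκ
  obtain ⟨ε, hε, nK, hK⟩ := key_lemma (j + 1) (by omega) (4 * (κ + 1)) (by linarith)
  obtain ⟨Cj, hCj, nj, hj⟩ := ih (16 * (4 * (κ + 1)) + 16) (by linarith only [hκ])
  refine ⟨2 * (κ + 1) * (Cj * 2 ^ j + 1) / ε, by positivity,
    max (max 10 ⌈4 * κ + 2⌉₊) (max nK (4 * nj)), ?_⟩
  intro n hn γ hγ hγκ
  by_contra hnef
  obtain ⟨b, c, m, hb, hE, hv⟩ := viol_of_not_nef hnef
  have hn10 : 10 ≤ n := le_trans (le_trans (le_max_left _ _) (le_max_left _ _)) hn
  have hnκ : 4 * κ + 2 ≤ n := le_trans (Nat.le_ceil _) (by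
    exact_mod_cast le_trans (le_trans (le_max_right _ _) (le_max_left _ _)) hn)
  have hnK : nK ≤ n := le_trans (le_trans (le_max_left _ _) (le_max_right _ _)) hn
  have hnj : 4 * nj ≤ n := le_trans (le_trans (le_max_right _ _) (le_max_right _ _)) hn
  have hnR : (10 : ℝ) ≤ n := by exact_mod_cast hn10
  obtain ⟨b', c', e, μ, -, -, -, hμ, hE', ha, hc, hbb, hω⟩ :=
    shape hn10 hκ hnκ hγ hγκ (by (clear * - hκ hCj hε hn10; positivity)) hb hE hv
  have hμR : (1 : ℝ) ≤ μ := by exact_mod_cast hμ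
  have hsn : 0 < √(n : ℝ) := Real.sqrt_pos.mpr (by linarith only [hnR])
  have hsn1 : 1 ≤ √(n : ℝ) := by rw [Real.one_le_sqrt]; linarith only [hnR]
  have hsn2 : √(n : ℝ) ^ 2 = n := Real.sq_sqrt (by linarith only [])
  -- bound for μ
  have hμ2 : (Cj * 2 ^ j + 1) * μ ≤ ε * √n ^ (j + 1) := by
    have h1 : 2 * (κ + 1) * ((Cj * 2 ^ j + 1) * μ) ≤ 2 * (κ + 1) * (ε * √n ^ (j + 1)) := by
      have h2 : 2 * (κ + 1) * (Cj * 2 ^ j + 1) / ε / √n ^ (j + 1) * μ * (ε * √n ^ (j + 1))
          = 2 * (κ + 1) * ((Cj * 2 ^ j + 1) * μ) := by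
        (clear * - hε hn10 hμ hCj hκ; field_simp)
      rw [← h2]
      (clear * - hω hε hn10; gcongr)
    exact le_of_mul_le_mul_left h1 (by positivity)
  have hC2 : 0 ≤ Cj * 2 ^ j := by (clear * - hCj; positivity)
  refine hK n hnK b' c' e μ hμ hE' ha hc hbb ?_ (Cj * 2 ^ j / √n ^ j) (by (clear * - hCj hn10; positivity)) ?_ ?_
  · have h3 : (μ : ℝ) ≤ ε * √n ^ (j + 1) := by nlinarith only [hμ2, hC2]
    refine h3.trans ?_
    have h4 : √(n : ℝ) ^ (j + 1) ≤ (n : ℝ) ^ (((j + 1 : ℕ) : ℝ) - 1 / 2) := by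
      have h5 : (n : ℝ) ^ (((j + 1 : ℕ) : ℝ) - 1 / 2) = √(n : ℝ) ^ (2 * j + 1) := by
        rw [Real.sqrt_eq_rpow, ← Real.rpow_natCast, ← Real.rpow_mul (by linarith only [])]
        congr 1
        push_cast
        ring
      rw [h5]
      exact pow_le_pow_right₀ hsn1 (by (clear * -; omega))
    (clear * - h4 hε; gcongr)
  · have h6 : Cj * 2 ^ j * μ ≤ ε * √n ^ (j + 1) := by nlinarith only [hμ2]
    rw [div_mul_eq_mul_div, div_le_iff₀ (by positivity)]
    calc Cj * 2 ^ j * μ ≤ ε * √n ^ (j + 1) := h6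
      _ = ε * √n * √n ^ j := by ring
  · intro s hs γ' hγ' hγκ'
    refine (hj s (by omega) γ' hγ' hγκ').mono ?_
    have hs4 : (n : ℝ) ≤ 4 * s := by exact_mod_cast hs
    have hspos : (0 : ℝ) < s := by linarith only [hnR, hs4]
    have h7 : √(n : ℝ) ≤ 2 * √s := by
      apply Real.sqrt_le_iff.mpr
      refine ⟨by (clear * - hspos; positivity), ?_⟩
      rw [mul_pow, Real.sq_sqrt hspos.le]
      linarith only [hs4]
    have h8 : √(n : ℝ) ^ j ≤ (2 * √s) ^ j := by (clear * - hn10 h7; gcongr)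
    rw [div_le_div_iff₀ (by (clear * - hspos; positivity)) (by positivity)]
    calc Cj * √n ^ j ≤ Cj * (2 * √s) ^ j := by (clear * - h8 hCj; gcongr)
      _ = Cj * 2 ^ j * √s ^ j := by rw [mul_pow]; ring

theorem PP_all (j : ℕ) : PP j := by
  induction j with
  | zero => exact PP_zero
  | succ j ih => exact PP_succ j ih

end Vale.Agent.P279
end
end

section

section

namespace Vale.Agent.P279

open MvPolynomial

theorem eff_le {n b c : ℕ} {m : Fin n → ℕ} (h : Eff b c m) (i : Fin n) : m i ≤ b := by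
  obtain ⟨P, hP, hV, hm⟩ := h (fun _ _ => 0)
  have h1 := (multGE_iff_le_ordAt _ _ hP).mp (hm i)
  have h2 := ordAt_le_totalDegree (fun _ => (0 : ℚ)) hP
  have h3 : P.totalDegree ≤ b := by
    apply Finset.sup_le
    intro δ hδ
    rw [Finsupp.sum_fintype _ _ (by simp)]
    rw [Fin.sum_univ_two]
    exact (hV δ hδ).1
  exact h1.trans (h2.trans h3)

theorem close_all (A : ℕ) : ∃ C : ℝ, 0 ≤ C ∧ ∀ n : ℕ, 10 ≤ n → ∀ (b c : ℕ) (m : Fin n → ℕ),
    Eff b c m → ∑ i, (m i : ℝ) ≤ b * √(n + C / (n : ℝ) ^ A) := by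
  obtain ⟨C, hC, n₀, h⟩ := PP_all (2 * A) 0 le_rfl
  refine ⟨max C ((n₀ : ℝ) ^ (A + 2)), by positivity, ?_⟩
  intro n hn b c m hE
  have hnR : (10 : ℝ) ≤ n := by exact_mod_cast hn
  by_cases hn0 : n₀ ≤ n
  · have h1 := h n hn0 0 le_rfl (by simp) b c m hE
    simp only [mul_zero, zero_add, ne_eq, OfNat.ofNat_ne_zero, not_false_eq_true, zero_pow] at h1
    refine h1.trans ?_
    have h2 : √(n : ℝ) ^ (2 * A) = (n : ℝ) ^ A := by
      rw [pow_mul, Real.sq_sqrt (by linarith only [])]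
    rw [h2]
    gcongr
    exact le_max_left _ _
  · have h3 : ∑ i, (m i : ℝ) ≤ n * b := by
      calc ∑ i, (m i : ℝ) ≤ ∑ _i : Fin n, (b : ℝ) := by
            apply Finset.sum_le_sum
            intro i _
            exact_mod_cast eff_le hE i
        _ = n * b := by simp only [Finset.sum_const, Finset.card_univ, Fintype.card_fin, nsmul_eq_mul]
    refine h3.trans ?_
    rw [mul_comm]
    have h4 : (n : ℝ) ≤ √(n + max C ((n₀ : ℝ) ^ (A + 2)) / (n : ℝ) ^ A) := by
      apply Real.le_sqrt_of_sq_le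
      have h5 : (n : ℝ) ^ 2 ≤ max C ((n₀ : ℝ) ^ (A + 2)) / (n : ℝ) ^ A := by
        rw [le_div_iff₀ (by positivity), ← pow_add]
        refine le_trans ?_ (le_max_right _ _)
        rw [add_comm 2 A]
        have : (n : ℝ) ≤ n₀ := by exact_mod_cast (by omega : n ≤ n₀)
        (clear * - hn this; gcongr)
      linarith only [h5]
    (clear * - h4; gcongr)

theorem strict_all (A : ℕ) : ∃ n₀ : ℕ, ∀ n : ℕ, n₀ ≤ n → ∀ (b c : ℕ) (m : Fin n → ℕ),
    1 ≤ b → b ≤ n ^ A → Eff b c m → ∑ i, (m i : ℝ) < b * √n := by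
  obtain ⟨ε, hε, nK, hK⟩ := key_lemma (A + 1) (by omega) 4 (by norm_num)
  obtain ⟨C, hC, nj, hj⟩ := PP_all (2 * A) (16 * 4 + 16) (by norm_num)
  refine ⟨max (max 10 (⌈((C * 4 ^ A + 1) / ε) ^ 2⌉₊)) (max nK (4 * nj)), ?_⟩
  intro n hn b c m hb hbn hE
  by_contra hv
  push Not at hv
  have hn10 : 10 ≤ n := le_trans (le_trans (le_max_left _ _) (le_max_left _ _)) hn
  have hnε : ((C * 4 ^ A + 1) / ε) ^ 2 ≤ n := le_trans (Nat.le_ceil _) (by
    exact_mod_cast le_trans (le_trans (le_max_right _ _) (le_max_left _ _)) hn)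
  have hnK : nK ≤ n := le_trans (le_trans (le_max_left _ _) (le_max_right _ _)) hn
  have hnj : 4 * nj ≤ n := le_trans (le_trans (le_max_right _ _) (le_max_right _ _)) hn
  have hnR : (10 : ℝ) ≤ n := by exact_mod_cast hn10
  have hsε : (C * 4 ^ A + 1) ≤ ε * √n := by
    have := Real.le_sqrt_of_sq_le hnε
    rw [div_le_iff₀ hε] at this
    linarith only [this]
  obtain ⟨b', c', e, μ, hb1, hb2, hμb, hμ, hE', ha, hc, hbb, hω⟩ :=
    shape (κ := 0) (γ := 0) (ω := 0) hn10 le_rfl (by linarith only [hnR]) le_rfl (by simp) le_rfl hb hE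
      (by simpa only [ne_eq, OfNat.ofNat_ne_zero, not_false_eq_true, zero_pow, zero_add, add_zero, mul_zero] using hv)
  have hμR : (1 : ℝ) ≤ μ := by exact_mod_cast hμ
  have hμn : (μ : ℝ) ≤ (n : ℝ) ^ A := by
    exact_mod_cast le_trans hμb (le_trans hb2 hbn)
  have hsn : 0 < √(n : ℝ) := Real.sqrt_pos.mpr (by linarith only [hnR])
  have hCA : 0 ≤ C * 4 ^ A := by (clear * - hC; positivity)
  refine hK n hnK b' c' e μ hμ hE' ha (by simpa only [zero_add, mul_one] using hc) hbb ?_ (C * 4 ^ A / (n : ℝ) ^ A)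
    (by (clear * - hC hn10; positivity)) ?_ ?_
  · have h5 : (n : ℝ) ^ (((A + 1 : ℕ) : ℝ) - 1 / 2) = (n : ℝ) ^ A * √n := by
      rw [Real.sqrt_eq_rpow, ← Real.rpow_natCast, ← Real.rpow_add (by linarith only [hnR])]
      congr 1
      push_cast
      ring
    rw [h5]
    calc (μ : ℝ) ≤ (n : ℝ) ^ A * 1 := by linarith only [hμn]
      _ ≤ (n : ℝ) ^ A * (ε * √n) := by gcongr; linarith only [hsε, hCA]
      _ = ε * ((n : ℝ) ^ A * √n) := by ring
  · calc C * 4 ^ A / (n : ℝ) ^ A * μ ≤ C * 4 ^ A / (n : ℝ) ^ A * (n : ℝ) ^ A := by (clear * - hμn hC hn10; gcongr)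
      _ = C * 4 ^ A := by (clear * - hn10; field_simp)
      _ ≤ ε * √n := by linarith only [hsε]
  · intro s hs γ' hγ' hγκ'
    refine (hj s (by omega) γ' hγ' hγκ').mono ?_
    have hs4 : (n : ℝ) ≤ 4 * s := by exact_mod_cast hs
    have hspos : (0 : ℝ) < s := by linarith only [hnR, hs4]
    rw [pow_mul, Real.sq_sqrt hspos.le]
    rw [div_le_div_iff₀ (by (clear * - hspos; positivity)) (by positivity)]
    calc C * (n : ℝ) ^ A ≤ C * (4 * s) ^ A := by (clear * - hn10 hs4 hC; gcongr)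
      _ = C * 4 ^ A * (s : ℝ) ^ A := by rw [mul_pow]; ring

end Vale.Agent.P279
end
end

section

section

namespace Vale.Agent.P279

open MvPolynomial

/-! ### Dehomogenization -/

/-- Setting the third variable equal to one. -/
noncomputable def dehom (F : MvPolynomial (Fin 3) ℂ) : MvPolynomial (Fin 2) ℂ :=
  aeval (![X 0, X 1, 1] : Fin 3 → MvPolynomial (Fin 2) ℂ) F

theorem eval_dehom (F : MvPolynomial (Fin 3) ℂ) (q : Fin 2 → ℂ) :
    eval q (dehom F) = eval ![q 0, q 1, 1] F := by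
  induction F using MvPolynomial.induction_on with
  | C a => simp [dehom]
  | add p q hp hq => simp only [dehom, map_add] at *; rw [hp, hq]
  | mul_X p n hp =>
    simp only [dehom, map_mul] at *
    rw [hp]
    fin_cases n <;> simp

theorem degree_eq {σ : Type*} [Fintype σ] {F : MvPolynomial σ ℂ} {d : ℕ}
    (hF : F.IsHomogeneous d) {s : σ →₀ ℕ} (hs : s ∈ F.support) : ∑ i, s i = d := by
  rw [hF.degree_eq_sum_deg_support hs]
  symm
  refine Finset.sum_subset (Finset.subset_univ _) fun i _ hi => ?_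
  simpa only [Finsupp.mem_support_iff, ne_eq, Decidable.not_not] using hi

theorem eval_homogeneous {σ : Type*} [Fintype σ] {F : MvPolynomial σ ℂ} {d : ℕ}
    (hF : F.IsHomogeneous d) (a : ℂ) (v : σ → ℂ) :
    eval (fun k => a * v k) F = a ^ d * eval v F := by
  rw [eval_eq', eval_eq', Finset.mul_sum]
  refine Finset.sum_congr rfl fun s hs => ?_
  have h1 := degree_eq hF hs
  simp only [mul_pow, Finset.prod_mul_distrib]
  rw [Finset.prod_pow_eq_pow_sum, h1]
  ring

theorem eval_dehom_point {F : MvPolynomial (Fin 3) ℂ} {d : ℕ} (hF : F.IsHomogeneous d)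
    (v : Fin 3 → ℂ) (hv : v 2 ≠ 0) :
    eval (fun k : Fin 2 => v k.castSucc / v 2) (dehom F) = ((v 2)⁻¹) ^ d * eval v F := by
  rw [eval_dehom, ← eval_homogeneous hF]
  congr 2
  funext k
  fin_cases k
  · simp only [Nat.succ_eq_add_one, Nat.reduceAdd, Fin.isValue, Fin.castSucc_zero, div_eq_inv_mul, Fin.castSucc_one, Fin.zero_eta, Matrix.cons_val_zero]
  · simp only [Nat.succ_eq_add_one, Nat.reduceAdd, Fin.isValue, Fin.castSucc_zero, div_eq_inv_mul, Fin.castSucc_one, Fin.mk_one, Matrix.cons_val_one, Matrix.cons_val_zero]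
  · simp [hv]

theorem dehom_ne_zero {F : MvPolynomial (Fin 3) ℂ} {d : ℕ} (hF : F.IsHomogeneous d)
    (h0 : F ≠ 0) : dehom F ≠ 0 := by
  intro h
  have h1 : F * X 2 = 0 := by
    apply MvPolynomial.funext
    intro v
    rw [map_mul, eval_X, map_zero]
    by_cases hv : v 2 = 0
    · rw [hv, mul_zero]
    · have h2 := eval_dehom_point hF v hv
      rw [h, map_zero] at h2
      have h3 : ((v 2)⁻¹) ^ d ≠ 0 := pow_ne_zero _ (inv_ne_zero hv)
      rw [(mul_eq_zero.mp h2.symm).resolve_left h3, zero_mul]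
  rcases mul_eq_zero.mp h1 with h2 | h2
  · exact h0 h2
  · exact X_ne_zero _ h2

theorem inV_dehom {F : MvPolynomial (Fin 3) ℂ} {d : ℕ} (hF : F.IsHomogeneous d) :
    InV d 0 (dehom F) := by
  rw [dehom, aeval_def, eval₂_eq']
  refine InV.sum fun s hs => ?_
  rw [algebraMap_eq, Fin.prod_univ_three]
  have h1 := degree_eq hF hs
  rw [Fin.sum_univ_three] at h1
  have h2 := (InV.C (a := coeff s F)).mul ((InV.X_zero (R := ℂ).pow (s 0)).mul
    (InV.X_one (R := ℂ).pow (s 1)))
  simp only [Matrix.cons_val_zero, Matrix.cons_val_one, Matrix.cons_val_two, Matrix.tail_cons,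
    Matrix.head_cons, one_pow, mul_one]
  exact h2.mono (by omega) (by omega)

theorem pderiv_dehom (F : MvPolynomial (Fin 3) ℂ) (k : Fin 2) :
    pderiv k (dehom F) = dehom (pderiv k.castSucc F) := by
  induction F using MvPolynomial.induction_on with
  | C a => simp [dehom]
  | add p q hp hq => simp only [dehom, map_add] at *; rw [hp, hq]
  | mul_X p n hp =>
    simp only [dehom, map_mul, Derivation.leibniz, smul_eq_mul, map_add] at *
    rw [hp]
    fin_cases n <;> fin_cases k <;> simp [pderiv_X]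

/-- Recursive description of the order of vanishing in characteristic zero. -/
theorem multGE_succ {q : Fin 2 → ℂ} {m : ℕ} {P : MvPolynomial (Fin 2) ℂ} (h0 : eval q P = 0)
    (h : ∀ k, MultGE q m (pderiv k P)) : MultGE q (m + 1) P := by
  intro α hα
  by_cases hα0 : α = 0
  · rw [hα0, ← constantCoeff_eq]
    have h1 : constantCoeff (shift q P) = eval q P := by
      clear h h0
      induction P using MvPolynomial.induction_on with
      | C a => simp only [shift, aeval_eq_bind₁, algHom_C, algebraMap_eq, constantCoeff_C, eval_C]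
      | add p q hp hq => simp only [map_add, hp, hq]
      | mul_X p n hp => simp only [map_mul, shift_X, hp]; simp
    rw [h1, h0]
  · have h4 : ∃ k : Fin 2, 1 ≤ α k := by
      by_contra hcon
      push Not at hcon
      apply hα0
      ext k
      have := hcon k
      simp only [Finsupp.coe_zero, Pi.zero_apply]
      omega
    obtain ⟨k, hk⟩ := h4
    set β : Fin 2 →₀ ℕ := α - Finsupp.single k 1 with hβ
    have hβα : β + Finsupp.single k 1 = α := by
      rw [hβ]
      apply tsub_add_cancel_of_le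
      rw [Finsupp.single_le_iff]
      exact hk
    have hβm : β 0 + β 1 < m := by
      have h6 := congrArg Finsupp.degree hβα
      rw [map_add, Finsupp.degree_single, degree_two, degree_two] at h6
      omega
    have h5 := h k β hβm
    rw [← pderiv_shift, coeff_pderiv, hβα] at h5
    rcases mul_eq_zero.mp h5 with h | h
    · exact h
    · exact absurd h (Nat.cast_add_one_ne_zero _)

theorem multGE_dehom {F : MvPolynomial (Fin 3) ℂ} {d : ℕ} (hF : F.IsHomogeneous d)
    (v : Fin 3 → ℂ) (hv : v 2 ≠ 0) (m : ℕ)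
    (h : ∀ l : List (Fin 3), l.length < m → eval v (l.foldr (fun j G => pderiv j G) F) = 0) :
    MultGE (fun k : Fin 2 => v k.castSucc / v 2) m (dehom F) := by
  induction m generalizing F d with
  | zero => exact multGE_zero_left
  | succ m ih =>
    apply multGE_succ
    · have h1 := h [] (by simp only [List.length_nil, lt_add_iff_pos_left, Order.lt_add_one_iff, zero_le])
      rw [List.foldr_nil] at h1
      rw [eval_dehom_point hF v hv, h1, mul_zero]
    · intro k
      rw [pderiv_dehom]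
      refine ih (hF.pderiv (i := k.castSucc)) fun l hl => ?_
      have h1 := h (l ++ [k.castSucc]) (by simp; omega)
      rwa [List.foldr_append] at h1

theorem eff_of_curve {r : ℕ} {p : Fin r → PPlane} (hp2 : ∀ i, (p i).rep 2 ≠ 0)
    (hai : AlgebraicIndependent ℚ
      (fun x : Fin r × Fin 2 => (p x.1).rep x.2.castSucc / (p x.1).rep 2))
    {d : ℕ} {F : MvPolynomial (Fin 3) ℂ} (hF : F.IsHomogeneous d) (h0 : F ≠ 0) (m : Fin r → ℕ)
    (hm : ∀ i, MultAtLeast F (p i) (m i)) : Eff d 0 m :=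
  eff_of_generic (fun i k => (p i).rep k.castSucc / (p i).rep 2) hai d 0 m (dehom F)
    (dehom_ne_zero hF h0) (inV_dehom hF) (fun i => multGE_dehom hF (p i).rep (hp2 i) (m i) (hm i))

/-! ### Very general tuples -/

section VeryGen

variable {r : ℕ}

instance countable_poly (r : ℕ) : Countable (MvPolynomial (Fin r × Fin 2) ℚ) := by
  rw [← Cardinal.mk_le_aleph0_iff]
  exact (MvPolynomial.cardinalMk_le_max).trans
    (max_le (max_le Cardinal.mk_le_aleph0 Cardinal.mk_le_aleph0) le_rfl)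

/-- The exponent of the multihomogenization. -/
noncomputable def texp (N : ℕ) (s : Fin r × Fin 2 →₀ ℕ) : Fin r × Fin 3 →₀ ℕ :=
  Finsupp.equivFunOnFinite.symm
    (fun x => ![s (x.1, 0), s (x.1, 1), N - s (x.1, 0) - s (x.1, 1)] x.2)

theorem texp_apply (N : ℕ) (s : Fin r × Fin 2 →₀ ℕ) (x : Fin r × Fin 3) :
    texp N s x = ![s (x.1, 0), s (x.1, 1), N - s (x.1, 0) - s (x.1, 1)] x.2 := rfl

/-- The multihomogenization. -/
noncomputable def hom (Φ : MvPolynomial (Fin r × Fin 2) ℚ) : MvPolynomial (Fin r × Fin 3) ℂ :=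
  ∑ s ∈ Φ.support, monomial (texp (Φ.totalDegree + 1) s) (algebraMap ℚ ℂ (coeff s Φ))

theorem exp_le {Φ : MvPolynomial (Fin r × Fin 2) ℚ} {s : Fin r × Fin 2 →₀ ℕ}
    (hs : s ∈ Φ.support) (i : Fin r) : s (i, 0) + s (i, 1) ≤ Φ.totalDegree := by
  have h1 := le_totalDegree hs
  rw [Finsupp.sum_fintype _ _ (fun _ => rfl), Fintype.sum_prod_type] at h1
  refine le_trans ?_ h1
  have h2 := Finset.single_le_sum (f := fun i : Fin r => ∑ k : Fin 2, s (i, k))
    (fun _ _ => Nat.zero_le _) (Finset.mem_univ i)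
  simpa only [Fin.sum_univ_two] using h2

theorem hom_multiHomogeneous (Φ : MvPolynomial (Fin r × Fin 2) ℚ) : MultiHomogeneous (hom Φ) := by
  classical
  intro i
  refine ⟨Φ.totalDegree + 1, fun t ht => ?_⟩
  have h1 := support_sum ht
  rw [Finset.mem_biUnion] at h1
  obtain ⟨s, hs, hts⟩ := h1
  have h2 := support_monomial_subset hts
  rw [Finset.mem_singleton] at h2
  subst h2
  have h3 := exp_le hs i
  rw [Fin.sum_univ_three]
  simp only [texp_apply, Matrix.cons_val_zero, Matrix.cons_val_one, Matrix.cons_val_two,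
    Matrix.tail_cons, Matrix.head_cons]
  omega

theorem eval_hom (Φ : MvPolynomial (Fin r × Fin 2) ℚ) (w : Fin r × Fin 3 → ℂ)
    (hw : ∀ i, w (i, 2) ≠ 0) :
    eval w (hom Φ) = (∏ i, w (i, 2) ^ (Φ.totalDegree + 1)) *
      aeval (fun x : Fin r × Fin 2 => w (x.1, x.2.castSucc) / w (x.1, 2)) Φ := by
  rw [hom, map_sum, aeval_def, eval₂_eq', Finset.mul_sum]
  refine Finset.sum_congr rfl fun s hs => ?_
  rw [eval_monomial, Finsupp.prod_fintype _ _ (fun _ => pow_zero _)]
  rw [mul_left_comm]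
  congr 1
  rw [Fintype.prod_prod_type, Fintype.prod_prod_type, ← Finset.prod_mul_distrib]
  refine Finset.prod_congr rfl fun i _ => ?_
  have h3 := exp_le hs i
  rw [Fin.prod_univ_three, Fin.prod_univ_two]
  simp only [texp_apply, Matrix.cons_val_zero, Matrix.cons_val_one, Matrix.cons_val_two,
    Matrix.tail_cons, Matrix.head_cons, Fin.castSucc_zero, Fin.castSucc_one]
  obtain ⟨e, he⟩ : ∃ e, Φ.totalDegree + 1 = e + s (i, 0) + s (i, 1) :=
    ⟨Φ.totalDegree + 1 - s (i, 0) - s (i, 1), by omega⟩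
  have he' : Φ.totalDegree + 1 - s (i, 0) - s (i, 1) = e := by omega
  rw [he', he, div_pow, div_pow, pow_add, pow_add]
  have h4 := pow_ne_zero (s (i, 0)) (hw i)
  have h5 := pow_ne_zero (s (i, 1)) (hw i)
  field_simp

theorem hom_ne_zero_imp {Φ : MvPolynomial (Fin r × Fin 2) ℚ} {w : Fin r × Fin 3 → ℂ}
    (h : eval w (hom Φ) ≠ 0) (i : Fin r) : w (i, 2) ≠ 0 := by
  intro hw
  apply h
  rw [hom, map_sum]
  refine Finset.sum_eq_zero fun s hs => ?_
  rw [eval_monomial, Finsupp.prod_fintype _ _ (fun _ => pow_zero _)]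
  rw [Finset.prod_eq_zero (Finset.mem_univ (i, (2 : Fin 3))), mul_zero]
  rw [hw]
  apply zero_pow
  have h3 := exp_le hs i
  simp only [texp_apply, Matrix.cons_val_two, Matrix.tail_cons, Matrix.head_cons]
  omega

/-- A rational point off the diagonals where a given polynomial does not vanish. -/
theorem exists_point {Φ : MvPolynomial (Fin r × Fin 2) ℚ} (hΦ : Φ ≠ 0) :
    ∃ z : Fin r × Fin 2 → ℚ, eval z Φ ≠ 0 ∧ ∀ i j, i ≠ j → z (i, 0) ≠ z (j, 0) := by
  classical
  set Δ : MvPolynomial (Fin r × Fin 2) ℚ :=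
    ∏ i : Fin r, ∏ j : Fin r, if i = j then 1 else (X (i, 0) - X (j, 0)) with hΔ
  have hΔ0 : Δ ≠ 0 := by
    rw [hΔ, Finset.prod_ne_zero_iff]
    intro i _
    rw [Finset.prod_ne_zero_iff]
    intro j _
    split_ifs with h
    · exact one_ne_zero
    · intro h2
      have h3 := X_injective (sub_eq_zero.mp h2)
      exact h (Prod.mk.inj h3).1
  obtain ⟨z, hz⟩ : ∃ z, eval z (Φ * Δ) ≠ 0 := by
    by_contra hcon
    push Not at hcon
    apply mul_ne_zero hΦ hΔ0
    apply MvPolynomial.funext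
    intro z
    rw [hcon z, map_zero]
  rw [map_mul] at hz
  refine ⟨z, left_ne_zero_of_mul hz, fun i j hij => ?_⟩
  have h1 := right_ne_zero_of_mul hz
  rw [hΔ, map_prod, Finset.prod_ne_zero_iff] at h1
  have h2 := h1 i (Finset.mem_univ i)
  rw [map_prod, Finset.prod_ne_zero_iff] at h2
  have h3 := h2 j (Finset.mem_univ j)
  rw [if_neg hij, map_sub, eval_X, eval_X, sub_ne_zero] at h3
  exact h3

/-- The affine point `(a, b)` in the projective plane. -/
noncomputable def affPt (a b : ℂ) : PPlane :=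
  Projectivization.mk ℂ ![a, b, 1] (by
    intro h
    have := congrFun h 2
    simp at this)

theorem affPt_rep (a b : ℂ) : (affPt a b).rep 2 ≠ 0 ∧
    (affPt a b).rep 0 / (affPt a b).rep 2 = a ∧ (affPt a b).rep 1 / (affPt a b).rep 2 = b := by
  obtain ⟨u, hu⟩ := Projectivization.exists_smul_eq_mk_rep ℂ ![a, b, 1] (by
    intro h
    have := congrFun h 2
    simp at this)
  have h0 := congrFun hu 0
  have h1 := congrFun hu 1
  have h2 := congrFun hu 2
  simp only [Pi.smul_apply, Units.smul_def, smul_eq_mul, Matrix.cons_val_zero,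
    Matrix.cons_val_one, Matrix.cons_val_two, Matrix.tail_cons, Matrix.head_cons,
    mul_one] at h0 h1 h2
  have hu0 : (u : ℂ) ≠ 0 := u.ne_zero
  change (affPt a b).rep 2 ≠ 0 ∧
    (affPt a b).rep 0 / (affPt a b).rep 2 = a ∧ (affPt a b).rep 1 / (affPt a b).rep 2 = b
  rw [affPt, ← h0, ← h1, ← h2]
  refine ⟨hu0, ?_, ?_⟩ <;> field_simp

theorem veryGenerally_of_algInd (r : ℕ) (Q : (Fin r → PPlane) → Prop)
    (h : ∀ p : Fin r → PPlane, Function.Injective p → (∀ i, (p i).rep 2 ≠ 0) →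
      AlgebraicIndependent ℚ
        (fun x : Fin r × Fin 2 => (p x.1).rep x.2.castSucc / (p x.1).rep 2) → Q p) :
    VeryGenerally r Q := by
  classical
  have hne : Nonempty {Φ : MvPolynomial (Fin r × Fin 2) ℚ // Φ ≠ 0} := ⟨⟨1, one_ne_zero⟩⟩
  obtain ⟨f, hf⟩ := exists_surjective_nat {Φ : MvPolynomial (Fin r × Fin 2) ℚ // Φ ≠ 0}
  refine ⟨fun k => {p | eval (fun x : Fin r × Fin 3 => (p x.1).rep x.2) (hom (f k).1) = 0}, ?_, ?_⟩
  · intro k
    refine ⟨⟨{hom (f k).1}, ?_, ?_⟩, ?_⟩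
    · intro G hG
      rw [Set.mem_singleton_iff] at hG
      rw [hG]
      exact hom_multiHomogeneous _
    · ext p
      simp only [ne_eq, Set.mem_ofPred_eq, Set.mem_singleton_iff, forall_eq]
    · obtain ⟨z, hz, hzd⟩ := exists_point (f k).2
      refine ⟨fun i => affPt (z (i, 0)) (z (i, 1)), ?_, ?_⟩
      · intro i j hij
        by_contra hne
        have h1 := (affPt_rep (z (i, 0)) (z (i, 1))).2.1
        have h2 := (affPt_rep (z (j, 0)) (z (j, 1))).2.1
        simp only at hij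
        rw [hij] at h1
        have h3 := h1.symm.trans h2
        exact hzd i j hne (by exact_mod_cast h3)
      · rw [Set.mem_ofPred_eq, eval_hom]
        · intro h0
          rcases mul_eq_zero.mp h0 with h1 | h1
          · rw [Finset.prod_eq_zero_iff] at h1
            obtain ⟨i, _, hi⟩ := h1
            exact (affPt_rep (z (i, 0)) (z (i, 1))).1 (pow_eq_zero_iff (by omega) |>.mp hi)
          · have h2 : (fun x : Fin r × Fin 2 =>
                (affPt (z (x.1, 0)) (z (x.1, 1))).rep x.2.castSucc /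
                  (affPt (z (x.1, 0)) (z (x.1, 1))).rep 2) = fun x => algebraMap ℚ ℂ (z x) := by
              funext x
              obtain ⟨i, k⟩ := x
              fin_cases k
              · exact (affPt_rep (z (i, 0)) (z (i, 1))).2.1
              · exact (affPt_rep (z (i, 0)) (z (i, 1))).2.2
            simp only at h1
            rw [h2] at h1
            have h3 : aeval (fun x => algebraMap ℚ ℂ (z x)) (f k).1 =
                algebraMap ℚ ℂ (eval z (f k).1) := by
              have h4 := aeval_algebraMap_apply ℂ z (f k).1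
              have h5 : aeval z (f k).1 = eval z (f k).1 := by
                rw [← coe_aeval_eq_eval]
                rfl
              rw [h5] at h4
              exact h4
            rw [h3] at h1
            exact hz ((map_eq_zero (algebraMap ℚ ℂ)).mp h1)
        · intro i
          exact (affPt_rep (z (i, 0)) (z (i, 1))).1
  · intro p hp hpZ
    have h2 : ∀ i, (p i).rep 2 ≠ 0 := by
      intro i
      obtain ⟨k, hk⟩ := hf ⟨1, one_ne_zero⟩
      exact hom_ne_zero_imp (hpZ k) i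
    refine h p hp h2 ?_
    rw [algebraicIndependent_iff]
    intro Φ hΦ
    by_contra hne
    obtain ⟨k, hk⟩ := hf ⟨Φ, hne⟩
    apply hpZ k
    rw [Set.mem_ofPred_eq, hk, eval_hom _ _ h2]
    simp only
    rw [hΦ, mul_zero]

end VeryGen

end Vale.Agent.P279
end
end
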